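import Vale.Agent.P318.H867.Defs

/-!
# Signed schemes: definitions

A classification `ρ : V → V → R` of the pairs of points of a finite set `V`; its relations are
`ρ x y = r`.
-/

open Finset

open scoped commutatorElement

namespace Vale.Agent.P318.R2.H202

open Classical in
/-- The functions `f : V → {-1,0,1}` that are eigenfunctions of every relation `ρ x y = r`. -/
def signedEigen {V R : Type*} [Fintype V] (ρ : V → V → R) : Set (V → ℝ) :=
  {f | (∀ x, f x = -1 ∨ f x = 0 ∨ f x = 1) ∧
    ∀ r, ∃ μ : ℝ, ∀ x, ∑ y ∈ univ.filter (fun y => ρ x y = r), f y = μ * f x}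

/-- `(V, ρ)` is a signed scheme: the constant `1` is an eigenfunction of every relation, and
the common eigenfunctions with values in `{-1,0,1}` span all functions on `V`. -/
structure SignedScheme {V R : Type*} [Fintype V] (ρ : V → V → R) : Prop where
  one_mem : (fun _ => 1) ∈ signedEigen ρ
  span : Submodule.span ℝ (signedEigen ρ) = ⊤

open Classical in
/-- the nested relation: the relation of the first coordinates if they differ, else the relation
of the second coordinates -/
noncomputable def nestRel {V W R Q : Type*} (ρ : V → V → R) (σ : W → W → Q) (x y : V × W) :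
    R ⊕ Q :=
  if x.1 = y.1 then Sum.inr (σ x.2 y.2) else Sum.inl (ρ x.1 y.1)

/-- the subspaces of dimension `k` of `E` -/
abbrev Gr (F E : Type*) [Field F] [AddCommGroup E] [Module F E] (k : ℕ) : Type _ :=
  {S : Submodule F E // Module.finrank F S = k}

/-- the dimension of the intersection -/
noncomputable def grRel (F E : Type*) [Field F] [AddCommGroup E] [Module F E] (k : ℕ) :
    Gr F E k → Gr F E k → ℕ :=
  fun S T => Module.finrank F (S.1 ⊓ T.1 : Submodule F E)

/-- `Q` has a noncentral abelian normal subgroup -/
def HasNoncentral (Q : Type) [Group Q] : Prop :=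
  ∃ A : Subgroup Q, A.Normal ∧ (∀ a ∈ A, ∀ b ∈ A, a * b = b * a) ∧ ∃ a ∈ A, ∃ g : Q, g * a ≠ a * g

/-- every nonabelian homomorphic image of a subgroup of `G` has a noncentral abelian normal
subgroup -/
def SecCond (G : Type) [Group G] : Prop :=
  ∀ (H : Subgroup G) (Q : Type) [Group Q] (π : H →* Q), Function.Surjective π →
    (∃ a b : Q, a * b ≠ b * a) → HasNoncentral Q

/-- the set of the subgroups conjugate to the subgroup generated by `x⁻¹ * y` -/
def conjGen (G : Type) [Group G] : G → G → Set (Subgroup G) :=
  fun x y => {K | ∃ a : G, K = Subgroup.zpowers (a * (x⁻¹ * y) * a⁻¹)}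

/-- Finite sets `V` with a classification of the pairs of points of `V`: basic ones, finite
products and nested products. -/
inductive Scheme : (V : Type) → (R : Type) → (V → V → R) → Prop
  /-- any set, pairs classified by equality -/
  | sets (V : Type) : Scheme V Prop (fun x y => x = y)
  /-- the subsets of `{0, ..., n-1}` with `k` elements, pairs classified by the size of the
  intersection -/
  | slice (n k : ℕ) : Scheme {S : Finset (Fin n) // S.card = k} ℕ (fun S T => (S.1 ∩ T.1).card)
  /-- the subspaces of dimension `k` of a finite vector space, pairs classified by the dimension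
  of the intersection -/
  | grassmann (F E : Type) [Field F] [Finite F] [AddCommGroup E] [Module F E] [Finite E] (k : ℕ) :
      Scheme (Gr F E k) ℕ (grRel F E k)
  /-- the permutations of `{0, ..., n-1}`, pairs classified by the cycle type of the quotient -/
  | perm (n : ℕ) :
      Scheme (Equiv.Perm (Fin n)) (Multiset ℕ) (fun x y => (x⁻¹ * y).cycleType)
  /-- a finite group such that every nonabelian homomorphic image of a subgroup has a noncentral
  abelian normal subgroup; pairs classified by the set of the subgroups conjugate to the subgroup
  generated by the quotient -/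
  | group (G : Type) [Group G] [Finite G] (h : SecCond G) :
      Scheme G (Set (Subgroup G)) (conjGen G)
  /-- the finite nilpotent groups, same classification -/
  | nilpotent (G : Type) [Group G] [Finite G] (h : Group.IsNilpotent G) :
      Scheme G (Set (Subgroup G)) (conjGen G)
  /-- the finite metabelian groups, same classification -/
  | metabelian (G : Type) [Group G] [Finite G]
      (h : ∀ a b c d : G, ⁅a, b⁆ * ⁅c, d⁆ = ⁅c, d⁆ * ⁅a, b⁆) :
      Scheme G (Set (Subgroup G)) (conjGen G)
  /-- an abelian group of exponent dividing `4` or `6`, pairs classified by the difference up to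
  sign -/
  | abelian (A : Type) [AddCommGroup A] (h : (∀ a : A, 4 • a = 0) ∨ (∀ a : A, 6 • a = 0)) :
      Scheme A (Set A) (fun x y => {x - y, y - x})
  /-- any symmetric classification for which the constants are eigenfunctions and the common
  eigenfunctions with values in `{-1, 0, 1}` span all functions -/
  | other (V R : Type) [Fintype V] (ρ : V → V → R) (hs : ∀ x y, ρ x y = ρ y x)
      (hd : ∀ x y, ρ x x = ρ y y) (h : SignedScheme ρ) : Scheme V R ρ
  /-- finite products, pairs classified by the tuple of the classes of the coordinates -/
  | prod (ι : Type) [Finite ι] (V R : ι → Type) [∀ i, Finite (V i)] (ρ : ∀ i, V i → V i → R i)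
      (h : ∀ i, Scheme (V i) (R i) (ρ i)) :
      Scheme (∀ i, V i) (∀ i, R i) (fun x y i => ρ i (x i) (y i))
  /-- nested products: the class of the first coordinates if they differ, else the class of the
  second coordinates -/
  | nested (V R W Q : Type) [Finite V] [Finite W] (ρ : V → V → R) (σ : W → W → Q)
      (hV : Scheme V R ρ) (hW : Scheme W Q σ) : Scheme (V × W) (R ⊕ Q) (nestRel ρ σ)

end Vale.Agent.P318.R2.H202
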