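import Vale.Agent.P318.H867.Cut
import Vale.Agent.P318.R2.H202.SchemeDefs

/-!
# Signed schemes: the spectral bound for Uniform Sparsest Cut is within a factor two
-/

open Finset

set_option linter.unusedSectionVars false

namespace Vale.Agent.P318.R2.H202

open Vale.Agent.P318.H867

section core

variable {V : Type*} [Fintype V] [DecidableEq V] {c : V → V → ℝ}

lemma energy (hs : ∀ x y, c x y = c y x) (f g : V → ℝ) :
    ∑ x, ∑ y, c x y * ((f x - f y) * (g x - g y)) =
      2 * ∑ x, f x * ∑ y, c x y * (g x - g y) := by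
  have h1 : ∑ x, ∑ y, c x y * ((f x - f y) * (g x - g y)) =
      ∑ x, ∑ y, c x y * (f x * (g x - g y)) - ∑ x, ∑ y, c x y * (f y * (g x - g y)) := by
    rw [← sum_sub_distrib]
    refine sum_congr rfl fun x _ => ?_
    rw [← sum_sub_distrib]
    refine sum_congr rfl fun y _ => ?_
    ring
  have h2 : ∑ x, ∑ y, c x y * (f y * (g x - g y)) =
      - ∑ x, ∑ y, c x y * (f x * (g x - g y)) := by
    rw [sum_comm, ← sum_neg_distrib]
    refine sum_congr rfl fun x _ => ?_
    rw [← sum_neg_distrib]
    refine sum_congr rfl fun y _ => ?_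
    rw [hs y x]; ring
  rw [h1, h2, mul_sum]
  have h3 : ∑ x, ∑ y, c x y * (f x * (g x - g y)) =
      ∑ x, f x * ∑ y, c x y * (g x - g y) := by
    refine sum_congr rfl fun x _ => ?_
    rw [mul_sum]
    refine sum_congr rfl fun y _ => ?_
    ring
  rw [h3, ← mul_sum]; ring

/-- a nonconstant eigenfunction of the Laplacian with values in `{-1,0,1}` gives a cut -/
theorem cut_of_eig (hc : ∀ x y, 0 ≤ c x y) (hs : ∀ x y, c x y = c y x) {f : V → ℝ} {μ : ℝ}
    (hf : ∀ x, f x = -1 ∨ f x = 0 ∨ f x = 1) (hne : ∃ x y, f x ≠ f y)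
    (he : ∀ x, ∑ y, c x y * (f x - f y) = μ * f x) :
    (Fintype.card V : ℝ) * phi c ≤ 2 * μ := by
  have hphi := phi_nonneg hc
  -- orthogonality to constants
  have horth : μ * ∑ x, f x = 0 := by
    have h1 := energy hs (fun _ => (1 : ℝ)) f
    simp only [sub_self, zero_mul, mul_zero, sum_const_zero, one_mul, he] at h1
    rw [← mul_sum] at h1
    linarith
  have hE : ∑ x, ∑ y, c x y * (f x - f y) ^ 2 = 2 * (μ * ∑ x, f x ^ 2) := by
    have h1 := energy hs f f
    simp only [he] at h1
    rw [mul_sum]
    have h2 : ∑ x, ∑ y, c x y * (f x - f y) ^ 2 = ∑ x, ∑ y, c x y * ((f x - f y) * (f x - f y)) := by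
      refine sum_congr rfl fun x _ => sum_congr rfl fun y _ => by ring
    rw [h2, h1]
    congr 1
    refine sum_congr rfl fun x _ => by ring
  set A := univ.filter (fun x => f x = 1) with hA
  set B := univ.filter (fun x => f x = -1) with hB
  have hcut : ∀ S : Finset V, ∑ x, ∑ y, c x y * (ind S x - ind S y) ^ 2 = 2 * cutCap c S := by
    intro S
    rw [← sum_ind_sub c hs S]
    refine sum_congr rfl fun x _ => sum_congr rfl fun y _ => ?_
    by_cases hx : x ∈ S <;> by_cases hy : y ∈ S <;> simp [ind, hx, hy]
  have hpt : ∀ x y, (ind A x - ind A y) ^ 2 + (ind B x - ind B y) ^ 2 ≤ (f x - f y) ^ 2 := by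
    intro x y
    rcases hf x with h | h | h <;> rcases hf y with h' | h' | h' <;>
      simp [ind, hA, hB, h, h'] <;> norm_num
  have hsum : 2 * cutCap c A + 2 * cutCap c B ≤ 2 * (μ * ∑ x, f x ^ 2) := by
    rw [← hE, ← hcut, ← hcut, ← sum_add_distrib]
    refine sum_le_sum fun x _ => ?_
    rw [← sum_add_distrib]
    refine sum_le_sum fun y _ => ?_
    rw [← mul_add]
    exact mul_le_mul_of_nonneg_left (hpt x y) (hc x y)
  have hf1 : ∀ x, f x = ind A x - ind B x := by
    intro x
    rcases hf x with h | h | h <;> simp [ind, hA, hB, h] <;> norm_num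
  have hf2 : ∀ x, f x ^ 2 = ind A x + ind B x := by
    intro x
    rcases hf x with h | h | h <;> simp [ind, hA, hB, h] <;> norm_num
  have hcard : ∀ S : Finset V, ∑ x, ind S x = (S.card : ℝ) := by
    intro S; simp [ind]
  have hS1 : ∑ x, f x = (A.card : ℝ) - B.card := by
    rw [sum_congr rfl fun x _ => hf1 x, sum_sub_distrib, hcard, hcard]
  have hS2 : ∑ x, f x ^ 2 = (A.card : ℝ) + B.card := by
    rw [sum_congr rfl fun x _ => hf2 x, sum_add_distrib, hcard, hcard]
  have hcompl : ∀ S : Finset V, ((Sᶜ).card : ℝ) = Fintype.card V - S.card := by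
    intro S
    rw [card_compl, Nat.cast_sub (card_le_univ S)]
  have hcA := phi_mul_le hc A
  have hcB := phi_mul_le hc B
  rw [hcompl] at hcA hcB
  rw [hS2] at hsum
  rcases mul_eq_zero.1 horth with h0 | h0
  · -- `μ = 0`: the energy vanishes and a level set is a cut of capacity zero
    subst h0
    have hz : cutCap c A + cutCap c B ≤ 0 := by linarith
    have hzA := cutCap_nonneg hc A
    have hzB := cutCap_nonneg hc B
    have hAB : (0 < (A.card : ℝ) * (Fintype.card V - A.card)) ∨
        (0 < (B.card : ℝ) * (Fintype.card V - B.card)) := by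
      obtain ⟨x, y, hxy⟩ := hne
      have key : ∀ S : Finset V, ∀ a b : V, a ∈ S → b ∉ S →
          0 < (S.card : ℝ) * (Fintype.card V - S.card) := by
        intro S a b ha hb
        rw [← hcompl]
        have h1 : 0 < S.card := card_pos.2 ⟨a, ha⟩
        have h2 : 0 < (Sᶜ).card := card_pos.2 ⟨b, by simpa using hb⟩
        exact mul_pos (Nat.cast_pos.2 h1) (Nat.cast_pos.2 h2)
      rcases hf x with h | h | h <;> rcases hf y with h' | h' | h'
      · exact absurd (h.trans h'.symm) hxy
      · exact Or.inr (key B x y (by simp [hB, h]) (by simp [hB, h']))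
      · exact Or.inr (key B x y (by simp [hB, h]) (by simp [hB, h']; norm_num))
      · exact Or.inr (key B y x (by simp [hB, h']) (by simp [hB, h]))
      · exact absurd (h.trans h'.symm) hxy
      · exact Or.inl (key A y x (by simp [hA, h']) (by simp [hA, h]))
      · exact Or.inr (key B y x (by simp [hB, h']) (by simp [hB, h]; norm_num))
      · exact Or.inl (key A x y (by simp [hA, h]) (by simp [hA, h']))
      · exact absurd (h.trans h'.symm) hxy
    have hle : phi c ≤ 0 := by
      rcases hAB with h | h
      · by_contra hcon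
        push Not at hcon
        have := mul_pos hcon h
        linarith
      · by_contra hcon
        push Not at hcon
        have := mul_pos hcon h
        linarith
    have hphi0 : phi c = 0 := le_antisymm hle hphi
    rw [hphi0]; simp
  · rw [hS1] at h0
    have hAB : (A.card : ℝ) = B.card := by linarith
    rw [← hAB] at hcB hsum
    have hapos : 0 < (A.card : ℝ) := by
      by_contra hcon
      have ha0 : (A.card : ℝ) = 0 := le_antisymm (not_lt.1 hcon) (Nat.cast_nonneg _)
      have h1 : A = ∅ := by
        rw [← card_eq_zero]; exact Nat.cast_eq_zero.1 ha0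
      have h2 : B = ∅ := by
        rw [← card_eq_zero]; exact Nat.cast_eq_zero.1 (hAB.symm.trans ha0)
      obtain ⟨x, y, hxy⟩ := hne
      apply hxy
      rw [hf1 x, hf1 y, h1, h2]; simp [ind]
    have h2a : 2 * (A.card : ℝ) ≤ Fintype.card V := by
      have hd : Disjoint A B := by
        rw [disjoint_left]
        intro x hx hx'
        simp only [hA, hB, mem_filter, mem_univ, true_and] at hx hx'
        rw [hx] at hx'; norm_num at hx'
      have h3 := card_le_univ (A ∪ B)
      rw [card_union_of_disjoint hd] at h3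
      have h4 : (A.card : ℝ) + B.card ≤ Fintype.card V := by exact_mod_cast h3
      linarith
    have h5 : phi c * (Fintype.card V - (A.card : ℝ)) ≤ μ := by
      have h7 : (A.card : ℝ) * (phi c * (Fintype.card V - (A.card : ℝ))) ≤ (A.card : ℝ) * μ := by
        have e1 : (A.card : ℝ) * (phi c * (Fintype.card V - (A.card : ℝ))) =
          phi c * ((A.card : ℝ) * (Fintype.card V - (A.card : ℝ))) := by ring
        rw [e1]; linarith
      exact le_of_mul_le_mul_left h7 hapos
    nlinarith

/-- If eigenfunctions of the Laplacian with values in `{-1,0,1}` span all functions, then the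
spectral inequality holds for all functions with `2 / Φ(c)`. -/
theorem spectral (hc : ∀ x y, 0 ≤ c x y) (hs : ∀ x y, c x y = c y x) {F : Set (V → ℝ)}
    (hF : ∀ f ∈ F, (∀ x, f x = -1 ∨ f x = 0 ∨ f x = 1) ∧
      ∃ μ : ℝ, ∀ x, ∑ y, c x y * (f x - f y) = μ * f x)
    (hspan : Submodule.span ℝ F = ⊤) (h : V → ℝ) :
    phi c * ∑ x, ∑ y, (h x - h y) ^ 2 ≤ 2 * ∑ x, ∑ y, c x y * (h x - h y) ^ 2 := by
  -- the symmetric matrix of the difference of the two quadratic forms
  set M : Matrix V V ℝ := Matrix.of fun x y =>
    (if x = y then 2 * (∑ z, c x z) - phi c * Fintype.card V else 0) - 2 * c x y + phi c with hM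
  have hMH : M.IsHermitian := by
    ext x y
    simp only [hM, Matrix.conjTranspose_apply, Matrix.of_apply, star_trivial]
    rw [hs y x]
    by_cases hxy : x = y
    · subst hxy; rfl
    · rw [if_neg hxy, if_neg (Ne.symm hxy)]
  have hMv : ∀ (u : V → ℝ) (x : V), (M.mulVec u) x =
      2 * ∑ y, c x y * (u x - u y) - phi c * ∑ y, (u x - u y) := by
    intro u x
    simp only [Matrix.mulVec, dotProduct, hM, Matrix.of_apply]
    simp_rw [add_mul, sub_mul, sum_add_distrib, sum_sub_distrib]
    simp only [ite_mul, zero_mul, sum_ite_eq, mem_univ, if_true]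
    simp_rw [mul_sub, sum_sub_distrib, mul_assoc, ← mul_sum, sum_const, card_univ, nsmul_eq_mul,
      ← sum_mul]
    ring
  have hquad : ∀ u : V → ℝ, 2 * ∑ x, u x * (M.mulVec u) x =
      2 * ∑ x, ∑ y, c x y * (u x - u y) ^ 2 - phi c * ∑ x, ∑ y, (u x - u y) ^ 2 := by
    intro u
    have h1 := energy hs u u
    have h2 := energy (c := fun _ _ => (1 : ℝ)) (fun _ _ => rfl) u u
    simp only [one_mul] at h2
    have h3 : ∑ x, u x * (M.mulVec u) x =
        2 * (∑ x, u x * ∑ y, c x y * (u x - u y)) - phi c * ∑ x, u x * ∑ y, (u x - u y) := by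
      rw [mul_sum, mul_sum, ← sum_sub_distrib]
      refine sum_congr rfl fun x _ => ?_
      rw [hMv]; ring
    rw [h3]
    simp_rw [pow_two]
    rw [h1, h2]; ring
  have hpsd : M.PosSemidef := by
    rw [hMH.posSemidef_iff_eigenvalues_nonneg]
    intro i
    by_contra hneg
    simp only [Pi.zero_apply, not_le] at hneg
    set ν := hMH.eigenvalues i with hν
    set u : V → ℝ := ⇑(hMH.eigenvectorBasis i) with hu
    have hMu : M.mulVec u = ν • u := hMH.mulVec_eigenvectorBasis i
    have hu0 : u ≠ 0 := by
      intro h0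
      have h1 : hMH.eigenvectorBasis i = 0 := by
        ext x; exact congrFun h0 x
      have h2 := hMH.eigenvectorBasis.orthonormal.1 i
      rw [h1] at h2; simp at h2
    -- `u` is orthogonal to constants
    have hsym : ∀ v w : V → ℝ, ∑ x, v x * (M.mulVec w) x = ∑ x, (M.mulVec v) x * w x := by
      intro v w
      have h1 : M.transpose = M := by
        have := hMH.eq
        rwa [Matrix.conjTranspose_eq_transpose_of_trivial] at this
      have h2 := Matrix.dotProduct_mulVec v M w
      rw [← Matrix.mulVec_transpose, h1] at h2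
      exact h2
    have hu1 : ∑ x, u x = 0 := by
      have h1 := hsym (fun _ => 1) u
      rw [hMu] at h1
      have h2 : ∀ x, (M.mulVec fun _ => 1) x = 0 := by
        intro x; rw [hMv]; simp
      simp only [h2, zero_mul, sum_const_zero, one_mul, Pi.smul_apply, smul_eq_mul,
        ← mul_sum] at h1
      rcases mul_eq_zero.1 h1 with h3 | h3
      · exact absurd h3 hneg.ne
      · exact h3
    -- some `f ∈ F` is not orthogonal to `u`
    obtain ⟨f, hfF, hfu⟩ : ∃ f ∈ F, ∑ x, f x * u x ≠ 0 := by
      by_contra hcon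
      push Not at hcon
      have h1 : ∀ g ∈ Submodule.span ℝ F, ∑ x, g x * u x = 0 := by
        intro g hg
        induction hg using Submodule.span_induction with
        | mem g hg => exact hcon g hg
        | zero => simp
        | add g₁ g₂ _ _ h₁ h₂ => simp [add_mul, sum_add_distrib, h₁, h₂]
        | smul a g _ h₁ => simp [mul_assoc, ← mul_sum, h₁]
      have h2 := h1 u (by rw [hspan]; trivial)
      apply hu0
      have h3 : ∀ x, u x * u x = 0 := by
        intro x
        have := (sum_eq_zero_iff_of_nonneg (fun x _ => mul_self_nonneg (u x))).1 h2 x (mem_univ x)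
        exact this
      ext x
      simpa using h3 x
    obtain ⟨hf, μ, hμ⟩ := hF f hfF
    -- `f` is not constant
    have hne : ∃ x y, f x ≠ f y := by
      by_contra hcon
      push Not at hcon
      apply hfu
      by_cases hV : Nonempty V
      · obtain ⟨x0⟩ := hV
        have : ∀ x, f x * u x = f x0 * u x := fun x => by rw [hcon x x0]
        rw [sum_congr rfl fun x _ => this x, ← mul_sum, hu1, mul_zero]
      · rw [not_nonempty_iff] at hV
        simp
    have hcut := cut_of_eig hc hs hf hne hμ
    -- compare eigenvalues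
    have h1 := hsym f u
    rw [hMu] at h1
    have hfsum : μ * ∑ x, f x = 0 := by
      have h1 := energy hs (fun _ => (1 : ℝ)) f
      simp only [sub_self, zero_mul, mul_zero, sum_const_zero, one_mul, hμ] at h1
      rw [← mul_sum] at h1
      linarith
    have h2 : ∑ x, (M.mulVec f) x * u x =
        (2 * μ - phi c * Fintype.card V) * ∑ x, f x * u x := by
      have h3 : ∀ x, (M.mulVec f) x * u x =
          (2 * μ - phi c * Fintype.card V) * (f x * u x) + (phi c * ∑ y, f y) * u x := by
        intro x
        rw [hMv, hμ, sum_sub_distrib, sum_const, card_univ, nsmul_eq_mul]; ring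
      rw [sum_congr rfl fun x _ => h3 x, sum_add_distrib, ← mul_sum, ← mul_sum, hu1]; ring
    rw [h2] at h1
    have h4 : ν * ∑ x, f x * u x = (2 * μ - phi c * Fintype.card V) * ∑ x, f x * u x := by
      rw [← h1, mul_sum]
      refine sum_congr rfl fun x _ => ?_
      simp only [Pi.smul_apply, smul_eq_mul]; ring
    have h5 := mul_right_cancel₀ hfu h4
    linarith
  have h6 := hquad h
  have h7 : 0 ≤ ∑ x, h x * (M.mulVec h) x := by
    have := hpsd.dotProduct_mulVec_nonneg h
    simpa [dotProduct] using this
  linarith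

/-- a feasible solution exists -/
lemma feasible (V : Type*) [Fintype V] [DecidableEq V] [Nontrivial V] :
    ∃ d : V → V → ℝ, IsNegTypeSemimetric d ∧ (∑ i, ∑ j, d i j) / 2 = 1 := by
  have hn : (1 : ℝ) < Fintype.card V := by exact_mod_cast Fintype.one_lt_card (α := V)
  set N : ℝ := (Fintype.card V : ℝ) with hN
  set t : ℝ := 1 / (N * (N - 1)) with ht
  have htpos : 0 < t := by
    have : 0 < N - 1 := by linarith
    positivity
  refine ⟨fun i j => if i = j then 0 else 2 * t, ⟨⟨fun i => EuclideanSpace.single i (Real.sqrt t),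
    ?_⟩, ?_⟩, ?_⟩
  · intro i j
    by_cases h : i = j
    · simp [h]
    · simp only [if_neg h]
      rw [EuclideanSpace.norm_sq_eq]
      have h1 : ∀ k, ‖(EuclideanSpace.single i (Real.sqrt t) -
          EuclideanSpace.single j (Real.sqrt t) : EuclideanSpace ℝ V) k‖ ^ 2 =
          (if k = i then t else 0) + (if k = j then t else 0) := by
        intro k
        by_cases hi : k = i
        · have hj : k ≠ j := fun h' => h (hi.symm.trans h')
          subst hi
          simp [hj, Real.sq_sqrt htpos.le]
        · by_cases hj : k = j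
          · subst hj
            simp [hi, Real.sq_sqrt htpos.le]
          · simp [hi, hj]
      simp_rw [h1, sum_add_distrib]
      simp
      ring
  · intro i j k
    by_cases h1 : i = k
    · subst h1
      simp only [if_true]
      split_ifs <;> linarith
    · by_cases h2 : i = j
      · subst h2
        simp [h1]
      · simp only [h1, h2, if_false]
        split_ifs <;> linarith
  · have h1 : ∀ i : V, ∑ j, (if i = j then (0:ℝ) else 2 * t) = (N - 1) * (2 * t) := by
      intro i
      have h2 : ∀ j : V, (if i = j then (0:ℝ) else 2 * t) = 2 * t - (if i = j then 2 * t else 0) := by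
        intro j; split_ifs <;> simp
      simp_rw [h2, sum_sub_distrib]
      simp [hN]
      ring
    simp_rw [h1]
    rw [sum_const, card_univ, nsmul_eq_mul, ← hN, ht]
    have : N - 1 ≠ 0 := by linarith
    have : N ≠ 0 := by linarith
    field_simp

/-- from the spectral inequality to the Goemans-Linial value -/
theorem gl_of_spectral (hsp : ∀ h : V → ℝ,
    phi c * ∑ x, ∑ y, (h x - h y) ^ 2 ≤ 2 * ∑ x, ∑ y, c x y * (h x - h y) ^ 2) :
    phi c ≤ 2 * glValue c := by
  by_cases hV : Nontrivial V
  · rw [← div_le_iff₀' (by norm_num : (0 : ℝ) < 2)]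
    apply le_csInf
    · obtain ⟨d, hd, h1⟩ := feasible V
      exact ⟨_, d, hd, h1, rfl⟩
    · rintro r ⟨d, ⟨⟨x, hx⟩, -⟩, h1, rfl⟩
      rw [div_le_iff₀' (by norm_num : (0 : ℝ) < 2)]
      have h2 : ∀ i j, d i j = ∑ k, (x i k - x j k) ^ 2 := by
        intro i j
        rw [hx, EuclideanSpace.norm_sq_eq]
        refine sum_congr rfl fun k _ => ?_
        simp
      have h3 : ∑ i, ∑ j, d i j = 2 := by linarith
      have hcomm : ∀ F : V → V → V → ℝ, ∑ i, ∑ j, ∑ k, F i j k = ∑ k, ∑ i, ∑ j, F i j k := by
        intro F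
        rw [sum_congr rfl fun i _ => sum_comm (f := fun j k => F i j k)]
        exact sum_comm
      have h4 : ∑ i, ∑ j, d i j = ∑ k, ∑ i, ∑ j, (x i k - x j k) ^ 2 := by
        simp_rw [h2]
        exact hcomm fun i j k => (x i k - x j k) ^ 2
      have h5 : ∑ i, ∑ j, c i j * d i j = ∑ k, ∑ i, ∑ j, c i j * (x i k - x j k) ^ 2 := by
        simp_rw [h2, mul_sum]
        exact hcomm fun i j k => c i j * (x i k - x j k) ^ 2
      have h6 : phi c * ∑ k, ∑ i, ∑ j, (x i k - x j k) ^ 2 ≤
          2 * ∑ k, ∑ i, ∑ j, c i j * (x i k - x j k) ^ 2 := by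
        rw [mul_sum, mul_sum]
        exact sum_le_sum fun k _ => hsp fun i => x i k
      rw [← h4, ← h5, h3] at h6
      linarith
  · rw [not_nontrivial_iff_subsingleton] at hV
    have h1 : phi c = 0 := by
      unfold phi
      convert Real.sInf_empty
      ext r
      simp only [Set.mem_ofPred_eq, Set.mem_empty_iff_false, iff_false]
      rintro ⟨S, ⟨a, ha⟩, ⟨b, hb⟩, -⟩
      rw [Subsingleton.elim b a] at hb
      simp [ha] at hb
    have h2 : 0 ≤ glValue c := by
      apply Real.sInf_nonneg
      rintro r ⟨d, ⟨⟨x, hx⟩, -⟩, h3, rfl⟩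
      exfalso
      have : ∀ i j, d i j = 0 := by
        intro i j; rw [hx, Subsingleton.elim i j]; simp
      simp [this] at h3
    rw [h1]; linarith

end core

end Vale.Agent.P318.R2.H202
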