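import Vale.Agent.P318.R2.H202.Near

/-!
# A fixed list of cuts for all capacities of a signed scheme
-/

open Finset

set_option linter.unusedSectionVars false

namespace Vale.Agent.P318.R2.H202

open Vale.Agent.P318.H867

section list

variable {V : Type*} [Fintype V] [DecidableEq V] {c : V → V → ℝ}

/-- a nonconstant eigenfunction of the Laplacian with values in `{-1,0,1}` gives a cut -/
theorem cut_of_eig_list (hc : ∀ x y, 0 ≤ c x y) (hs : ∀ x y, c x y = c y x) {r : ℝ} (hphi : 0 ≤ r)
    {f : V → ℝ} {μ : ℝ}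
    (hf : ∀ x, f x = -1 ∨ f x = 0 ∨ f x = 1) (hne : ∃ x y, f x ≠ f y)
    (he : ∀ x, ∑ y, c x y * (f x - f y) = μ * f x)
    (hcA : r * (((univ.filter (fun x => f x = 1)).card : ℝ) *
      (((univ.filter (fun x => f x = 1))ᶜ).card : ℝ)) ≤ cutCap c (univ.filter (fun x => f x = 1)))
    (hcB : r * (((univ.filter (fun x => f x = -1)).card : ℝ) *
      (((univ.filter (fun x => f x = -1))ᶜ).card : ℝ)) ≤
        cutCap c (univ.filter (fun x => f x = -1))) :
    (Fintype.card V : ℝ) * r ≤ 2 * μ := by
  -- orthogonality to constants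
  have horth : μ * ∑ x, f x = 0 := by
    have h1 := energy hs (fun _ => (1 : ℝ)) f
    simp only [sub_self, zero_mul, mul_zero, sum_const_zero, one_mul, he] at h1
    rw [← mul_sum] at h1
    linarith
  have hE : ∑ x, ∑ y, c x y * (f x - f y) ^ 2 = 2 * (μ * ∑ x, f x ^ 2) := by
    have h1 := energy hs f f
    simp only [he] at h1
    rw [mul_sum]
    have h2 : ∑ x, ∑ y, c x y * (f x - f y) ^ 2 = ∑ x, ∑ y, c x y * ((f x - f y) * (f x - f y)) := by
      refine sum_congr rfl fun x _ => sum_congr rfl fun y _ => by ring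
    rw [h2, h1]
    congr 1
    refine sum_congr rfl fun x _ => by ring
  set A := univ.filter (fun x => f x = 1) with hA
  set B := univ.filter (fun x => f x = -1) with hB
  have hcut : ∀ S : Finset V, ∑ x, ∑ y, c x y * (ind S x - ind S y) ^ 2 = 2 * cutCap c S := by
    intro S
    rw [← sum_ind_sub c hs S]
    refine sum_congr rfl fun x _ => sum_congr rfl fun y _ => ?_
    by_cases hx : x ∈ S <;> by_cases hy : y ∈ S <;> simp [ind, hx, hy]
  have hpt : ∀ x y, (ind A x - ind A y) ^ 2 + (ind B x - ind B y) ^ 2 ≤ (f x - f y) ^ 2 := by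
    intro x y
    rcases hf x with h | h | h <;> rcases hf y with h' | h' | h' <;>
      simp [ind, hA, hB, h, h'] <;> norm_num
  have hsum : 2 * cutCap c A + 2 * cutCap c B ≤ 2 * (μ * ∑ x, f x ^ 2) := by
    rw [← hE, ← hcut, ← hcut, ← sum_add_distrib]
    refine sum_le_sum fun x _ => ?_
    rw [← sum_add_distrib]
    refine sum_le_sum fun y _ => ?_
    rw [← mul_add]
    exact mul_le_mul_of_nonneg_left (hpt x y) (hc x y)
  have hf1 : ∀ x, f x = ind A x - ind B x := by
    intro x
    rcases hf x with h | h | h <;> simp [ind, hA, hB, h] <;> norm_num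
  have hf2 : ∀ x, f x ^ 2 = ind A x + ind B x := by
    intro x
    rcases hf x with h | h | h <;> simp [ind, hA, hB, h] <;> norm_num
  have hcard : ∀ S : Finset V, ∑ x, ind S x = (S.card : ℝ) := by
    intro S; simp [ind]
  have hS1 : ∑ x, f x = (A.card : ℝ) - B.card := by
    rw [sum_congr rfl fun x _ => hf1 x, sum_sub_distrib, hcard, hcard]
  have hS2 : ∑ x, f x ^ 2 = (A.card : ℝ) + B.card := by
    rw [sum_congr rfl fun x _ => hf2 x, sum_add_distrib, hcard, hcard]
  have hcompl : ∀ S : Finset V, ((Sᶜ).card : ℝ) = Fintype.card V - S.card := by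
    intro S
    rw [card_compl, Nat.cast_sub (card_le_univ S)]
  rw [hcompl] at hcA hcB
  rw [hS2] at hsum
  rcases mul_eq_zero.1 horth with h0 | h0
  · -- `μ = 0`: the energy vanishes and a level set is a cut of capacity zero
    subst h0
    have hz : cutCap c A + cutCap c B ≤ 0 := by linarith
    have hzA := cutCap_nonneg hc A
    have hzB := cutCap_nonneg hc B
    have hAB : (0 < (A.card : ℝ) * (Fintype.card V - A.card)) ∨
        (0 < (B.card : ℝ) * (Fintype.card V - B.card)) := by
      obtain ⟨x, y, hxy⟩ := hne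
      have key : ∀ S : Finset V, ∀ a b : V, a ∈ S → b ∉ S →
          0 < (S.card : ℝ) * (Fintype.card V - S.card) := by
        intro S a b ha hb
        rw [← hcompl]
        have h1 : 0 < S.card := card_pos.2 ⟨a, ha⟩
        have h2 : 0 < (Sᶜ).card := card_pos.2 ⟨b, by simpa using hb⟩
        exact mul_pos (Nat.cast_pos.2 h1) (Nat.cast_pos.2 h2)
      rcases hf x with h | h | h <;> rcases hf y with h' | h' | h'
      · exact absurd (h.trans h'.symm) hxy
      · exact Or.inr (key B x y (by simp [hB, h]) (by simp [hB, h']))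
      · exact Or.inr (key B x y (by simp [hB, h]) (by simp [hB, h']; norm_num))
      · exact Or.inr (key B y x (by simp [hB, h']) (by simp [hB, h]))
      · exact absurd (h.trans h'.symm) hxy
      · exact Or.inl (key A y x (by simp [hA, h']) (by simp [hA, h]))
      · exact Or.inr (key B y x (by simp [hB, h']) (by simp [hB, h]; norm_num))
      · exact Or.inl (key A x y (by simp [hA, h]) (by simp [hA, h']))
      · exact absurd (h.trans h'.symm) hxy
    have hle : r ≤ 0 := by
      rcases hAB with h | h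
      · by_contra hcon
        push Not at hcon
        have := mul_pos hcon h
        linarith
      · by_contra hcon
        push Not at hcon
        have := mul_pos hcon h
        linarith
    have hphi0 : r = 0 := le_antisymm hle hphi
    rw [hphi0]; simp
  · rw [hS1] at h0
    have hAB : (A.card : ℝ) = B.card := by linarith
    rw [← hAB] at hcB hsum
    have hapos : 0 < (A.card : ℝ) := by
      by_contra hcon
      have ha0 : (A.card : ℝ) = 0 := le_antisymm (not_lt.1 hcon) (Nat.cast_nonneg _)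
      have h1 : A = ∅ := by
        rw [← card_eq_zero]; exact Nat.cast_eq_zero.1 ha0
      have h2 : B = ∅ := by
        rw [← card_eq_zero]; exact Nat.cast_eq_zero.1 (hAB.symm.trans ha0)
      obtain ⟨x, y, hxy⟩ := hne
      apply hxy
      rw [hf1 x, hf1 y, h1, h2]; simp [ind]
    have h2a : 2 * (A.card : ℝ) ≤ Fintype.card V := by
      have hd : Disjoint A B := by
        rw [disjoint_left]
        intro x hx hx'
        simp only [hA, hB, mem_filter, mem_univ, true_and] at hx hx'
        rw [hx] at hx'; norm_num at hx'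
      have h3 := card_le_univ (A ∪ B)
      rw [card_union_of_disjoint hd] at h3
      have h4 : (A.card : ℝ) + B.card ≤ Fintype.card V := by exact_mod_cast h3
      linarith
    have h5 : r * (Fintype.card V - (A.card : ℝ)) ≤ μ := by
      have h7 : (A.card : ℝ) * (r * (Fintype.card V - (A.card : ℝ))) ≤ (A.card : ℝ) * μ := by
        have e1 : (A.card : ℝ) * (r * (Fintype.card V - (A.card : ℝ))) =
          r * ((A.card : ℝ) * (Fintype.card V - (A.card : ℝ))) := by ring
        rw [e1]; linarith
      exact le_of_mul_le_mul_left h7 hapos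
    nlinarith

/-- If eigenfunctions of the Laplacian with values in `{-1,0,1}` span all functions, then the
spectral inequality holds for all functions with `2 / Φ(c)`. -/
theorem spectral_list (hc : ∀ x y, 0 ≤ c x y) (hs : ∀ x y, c x y = c y x) {r : ℝ}
    (hr : 0 ≤ r) {F : Set (V → ℝ)}
    (hF : ∀ f ∈ F, (∀ x, f x = -1 ∨ f x = 0 ∨ f x = 1) ∧
      ∃ μ : ℝ, ∀ x, ∑ y, c x y * (f x - f y) = μ * f x)
    (hspan : Submodule.span ℝ F = ⊤)
    (hcA : ∀ f ∈ F, r * (((univ.filter (fun x => f x = 1)).card : ℝ) *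
      (((univ.filter (fun x => f x = 1))ᶜ).card : ℝ)) ≤ cutCap c (univ.filter (fun x => f x = 1)))
    (hcB : ∀ f ∈ F, r * (((univ.filter (fun x => f x = -1)).card : ℝ) *
      (((univ.filter (fun x => f x = -1))ᶜ).card : ℝ)) ≤
        cutCap c (univ.filter (fun x => f x = -1)))
    (h : V → ℝ) :
    r * ∑ x, ∑ y, (h x - h y) ^ 2 ≤ 2 * ∑ x, ∑ y, c x y * (h x - h y) ^ 2 := by
  -- the symmetric matrix of the difference of the two quadratic forms
  set M : Matrix V V ℝ := Matrix.of fun x y =>
    (if x = y then 2 * (∑ z, c x z) - r * Fintype.card V else 0) - 2 * c x y + r with hM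
  have hMH : M.IsHermitian := by
    ext x y
    simp only [hM, Matrix.conjTranspose_apply, Matrix.of_apply, star_trivial]
    rw [hs y x]
    by_cases hxy : x = y
    · subst hxy; rfl
    · rw [if_neg hxy, if_neg (Ne.symm hxy)]
  have hMv : ∀ (u : V → ℝ) (x : V), (M.mulVec u) x =
      2 * ∑ y, c x y * (u x - u y) - r * ∑ y, (u x - u y) := by
    intro u x
    simp only [Matrix.mulVec, dotProduct, hM, Matrix.of_apply]
    simp_rw [add_mul, sub_mul, sum_add_distrib, sum_sub_distrib]
    simp only [ite_mul, zero_mul, sum_ite_eq, mem_univ, if_true]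
    simp_rw [mul_sub, sum_sub_distrib, mul_assoc, ← mul_sum, sum_const, card_univ, nsmul_eq_mul,
      ← sum_mul]
    ring
  have hquad : ∀ u : V → ℝ, 2 * ∑ x, u x * (M.mulVec u) x =
      2 * ∑ x, ∑ y, c x y * (u x - u y) ^ 2 - r * ∑ x, ∑ y, (u x - u y) ^ 2 := by
    intro u
    have h1 := energy hs u u
    have h2 := energy (c := fun _ _ => (1 : ℝ)) (fun _ _ => rfl) u u
    simp only [one_mul] at h2
    have h3 : ∑ x, u x * (M.mulVec u) x =
        2 * (∑ x, u x * ∑ y, c x y * (u x - u y)) - r * ∑ x, u x * ∑ y, (u x - u y) := by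
      rw [mul_sum, mul_sum, ← sum_sub_distrib]
      refine sum_congr rfl fun x _ => ?_
      rw [hMv]; ring
    rw [h3]
    simp_rw [pow_two]
    rw [h1, h2]; ring
  have hpsd : M.PosSemidef := by
    rw [hMH.posSemidef_iff_eigenvalues_nonneg]
    intro i
    by_contra hneg
    simp only [Pi.zero_apply, not_le] at hneg
    set ν := hMH.eigenvalues i with hν
    set u : V → ℝ := ⇑(hMH.eigenvectorBasis i) with hu
    have hMu : M.mulVec u = ν • u := hMH.mulVec_eigenvectorBasis i
    have hu0 : u ≠ 0 := by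
      intro h0
      have h1 : hMH.eigenvectorBasis i = 0 := by
        ext x; exact congrFun h0 x
      have h2 := hMH.eigenvectorBasis.orthonormal.1 i
      rw [h1] at h2; simp at h2
    -- `u` is orthogonal to constants
    have hsym : ∀ v w : V → ℝ, ∑ x, v x * (M.mulVec w) x = ∑ x, (M.mulVec v) x * w x := by
      intro v w
      have h1 : M.transpose = M := by
        have := hMH.eq
        rwa [Matrix.conjTranspose_eq_transpose_of_trivial] at this
      have h2 := Matrix.dotProduct_mulVec v M w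
      rw [← Matrix.mulVec_transpose, h1] at h2
      exact h2
    have hu1 : ∑ x, u x = 0 := by
      have h1 := hsym (fun _ => 1) u
      rw [hMu] at h1
      have h2 : ∀ x, (M.mulVec fun _ => 1) x = 0 := by
        intro x; rw [hMv]; simp
      simp only [h2, zero_mul, sum_const_zero, one_mul, Pi.smul_apply, smul_eq_mul,
        ← mul_sum] at h1
      rcases mul_eq_zero.1 h1 with h3 | h3
      · exact absurd h3 hneg.ne
      · exact h3
    -- some `f ∈ F` is not orthogonal to `u`
    obtain ⟨f, hfF, hfu⟩ : ∃ f ∈ F, ∑ x, f x * u x ≠ 0 := by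
      by_contra hcon
      push Not at hcon
      have h1 : ∀ g ∈ Submodule.span ℝ F, ∑ x, g x * u x = 0 := by
        intro g hg
        induction hg using Submodule.span_induction with
        | mem g hg => exact hcon g hg
        | zero => simp
        | add g₁ g₂ _ _ h₁ h₂ => simp [add_mul, sum_add_distrib, h₁, h₂]
        | smul a g _ h₁ => simp [mul_assoc, ← mul_sum, h₁]
      have h2 := h1 u (by rw [hspan]; trivial)
      apply hu0
      have h3 : ∀ x, u x * u x = 0 := by
        intro x
        have := (sum_eq_zero_iff_of_nonneg (fun x _ => mul_self_nonneg (u x))).1 h2 x (mem_univ x)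
        exact this
      ext x
      simpa using h3 x
    obtain ⟨hf, μ, hμ⟩ := hF f hfF
    -- `f` is not constant
    have hne : ∃ x y, f x ≠ f y := by
      by_contra hcon
      push Not at hcon
      apply hfu
      by_cases hV : Nonempty V
      · obtain ⟨x0⟩ := hV
        have : ∀ x, f x * u x = f x0 * u x := fun x => by rw [hcon x x0]
        rw [sum_congr rfl fun x _ => this x, ← mul_sum, hu1, mul_zero]
      · rw [not_nonempty_iff] at hV
        simp
    have hcut := cut_of_eig_list hc hs hr hf hne hμ (hcA f hfF) (hcB f hfF)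
    -- compare eigenvalues
    have h1 := hsym f u
    rw [hMu] at h1
    have hfsum : μ * ∑ x, f x = 0 := by
      have h1 := energy hs (fun _ => (1 : ℝ)) f
      simp only [sub_self, zero_mul, mul_zero, sum_const_zero, one_mul, hμ] at h1
      rw [← mul_sum] at h1
      linarith
    have h2 : ∑ x, (M.mulVec f) x * u x =
        (2 * μ - r * Fintype.card V) * ∑ x, f x * u x := by
      have h3 : ∀ x, (M.mulVec f) x * u x =
          (2 * μ - r * Fintype.card V) * (f x * u x) + (r * ∑ y, f y) * u x := by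
        intro x
        rw [hMv, hμ, sum_sub_distrib, sum_const, card_univ, nsmul_eq_mul]; ring
      rw [sum_congr rfl fun x _ => h3 x, sum_add_distrib, ← mul_sum, ← mul_sum, hu1]; ring
    rw [h2] at h1
    have h4 : ν * ∑ x, f x * u x = (2 * μ - r * Fintype.card V) * ∑ x, f x * u x := by
      rw [← h1, mul_sum]
      refine sum_congr rfl fun x _ => ?_
      simp only [Pi.smul_apply, smul_eq_mul]; ring
    have h5 := mul_right_cancel₀ hfu h4
    linarith
  have h6 := hquad h
  have h7 : 0 ≤ ∑ x, h x * (M.mulVec h) x := by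
    have := hpsd.dotProduct_mulVec_nonneg h
    simpa [dotProduct] using this
  linarith


end list

/-- the ratio of a cut -/
noncomputable def ratio {V : Type*} [Fintype V] [DecidableEq V] (c : V → V → ℝ) (S : Finset V) :
    ℝ := cutCap c S / ((S.card : ℝ) * ((Sᶜ).card : ℝ))

lemma ratio_mul {V : Type*} [Fintype V] [DecidableEq V] (c : V → V → ℝ) {S : Finset V}
    (h1 : S.Nonempty) (h2 : Sᶜ.Nonempty) :
    ratio c S * ((S.card : ℝ) * ((Sᶜ).card : ℝ)) = cutCap c S := by
  have := h1.card_pos
  have := h2.card_pos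
  rw [ratio]; field_simp

open Classical in
/-- **A fixed list of at most `2 |V|` cuts.** -/
theorem SignedScheme.list {V R : Type*} [Fintype V] [DecidableEq V] [Nontrivial V]
    {ρ : V → V → R} (h : SignedScheme ρ) (hsym : ∀ x y, ρ x y = ρ y x) :
    ∃ 𝓛 : Finset (Finset V), 𝓛.card ≤ 2 * Fintype.card V ∧
      (∀ S ∈ 𝓛, S.Nonempty ∧ Sᶜ.Nonempty) ∧
      ∀ (φ : R → ℝ) (_ : ∀ x y, 0 ≤ φ (ρ x y)) (L : ℝ) (_ : 1 ≤ L) (c : V → V → ℝ)
        (_ : ∀ x y, φ (ρ x y) ≤ c x y ∧ c x y ≤ L * φ (ρ x y)),
        ∃ S ∈ 𝓛,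
          (∀ u : V → ℝ, ratio c S * ∑ x, ∑ y, (u x - u y) ^ 2 ≤
            2 * L * ∑ x, ∑ y, c x y * (u x - u y) ^ 2) ∧
          ratio c S ≤ 2 * L * glValue c := by
  obtain ⟨b, hb, hspan, hli⟩ := exists_linearIndependent ℝ (signedEigen ρ)
  rw [h.span] at hspan
  have hfin : b.Finite := hli.setFinite
  have hbc : hfin.toFinset.card ≤ Fintype.card V := by
    have hbf : Fintype b := hfin.fintype
    have h1 := hli.fintype_card_le_finrank
    rw [Module.finrank_fintype_fun_eq_card] at h1
    rw [Set.Finite.card_toFinset]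
    exact h1
  set 𝓛 : Finset (Finset V) := ((hfin.toFinset.image fun f => univ.filter (fun x => f x = 1)) ∪
    (hfin.toFinset.image fun f => univ.filter (fun x => f x = -1))).filter
      (fun S => S.Nonempty ∧ Sᶜ.Nonempty) with h𝓛
  have hprop : ∀ S ∈ 𝓛, S.Nonempty ∧ Sᶜ.Nonempty := fun S hS => (mem_filter.1 hS).2
  have hcard : 𝓛.card ≤ 2 * Fintype.card V := by
    refine (card_filter_le _ _).trans ((card_union_le _ _).trans ?_)
    have h1 := card_image_le (s := hfin.toFinset) (f := fun f => univ.filter (fun x => f x = (1 : ℝ)))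
    have h2 := card_image_le (s := hfin.toFinset)
      (f := fun f => univ.filter (fun x => f x = (-1 : ℝ)))
    omega
  -- the list certifies lower bounds
  have hlist : ∀ (c0 : V → V → ℝ) (_ : ∀ x y, 0 ≤ c0 x y) (r : ℝ),
      (∀ S ∈ 𝓛, r * ((S.card : ℝ) * ((Sᶜ).card : ℝ)) ≤ cutCap c0 S) →
      (∀ f ∈ b, r * (((univ.filter (fun x => f x = 1)).card : ℝ) *
        (((univ.filter (fun x => f x = 1))ᶜ).card : ℝ)) ≤
          cutCap c0 (univ.filter (fun x => f x = 1))) ∧
      (∀ f ∈ b, r * (((univ.filter (fun x => f x = -1)).card : ℝ) *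
        (((univ.filter (fun x => f x = -1))ᶜ).card : ℝ)) ≤
          cutCap c0 (univ.filter (fun x => f x = -1))) := by
    intro c0 hc0 r hr
    have key : ∀ S : Finset V, (S.Nonempty → Sᶜ.Nonempty → S ∈ 𝓛) →
        r * ((S.card : ℝ) * ((Sᶜ).card : ℝ)) ≤ cutCap c0 S := by
      intro S hS
      by_cases h1 : S.Nonempty
      · by_cases h2 : Sᶜ.Nonempty
        · exact hr S (hS h1 h2)
        · rw [not_nonempty_iff_eq_empty] at h2
          rw [h2]; simpa using cutCap_nonneg hc0 S
      · rw [not_nonempty_iff_eq_empty] at h1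
        rw [h1]; simpa using cutCap_nonneg hc0 ∅
    constructor
    · intro f hf
      apply key
      intro h1 h2
      exact mem_filter.2 ⟨mem_union_left _ (mem_image.2 ⟨f, hfin.mem_toFinset.2 hf, rfl⟩), h1, h2⟩
    · intro f hf
      apply key
      intro h1 h2
      exact mem_filter.2 ⟨mem_union_right _ (mem_image.2 ⟨f, hfin.mem_toFinset.2 hf, rfl⟩), h1, h2⟩
  have hne : 𝓛.Nonempty := by
    by_contra hcon
    rw [not_nonempty_iff_eq_empty] at hcon
    obtain ⟨h1, h2⟩ := hlist (fun _ _ => 0) (fun _ _ => le_rfl) 1 (by rw [hcon]; simp)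
    have h3 := spectral_list (c := fun _ _ : V => (0 : ℝ)) (fun _ _ => le_rfl) (fun _ _ => rfl)
      zero_le_one (F := b) (fun f hf => ⟨(hb hf).1, 0, fun x => by simp⟩) hspan h1 h2
    obtain ⟨x, y, hxy⟩ := exists_pair_ne V
    have h4 := h3 (Pi.single x 1)
    simp only [zero_mul, sum_const_zero, mul_zero, one_mul] at h4
    have h5 : ((Pi.single x 1 : V → ℝ) x - (Pi.single x 1 : V → ℝ) y) ^ 2 ≤
        ∑ x', ∑ y', ((Pi.single x 1 : V → ℝ) x' - (Pi.single x 1 : V → ℝ) y') ^ 2 :=
      (single_le_sum (f := fun y' => ((Pi.single x 1 : V → ℝ) x - (Pi.single x 1 : V → ℝ) y') ^ 2)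
        (fun _ _ => sq_nonneg _) (mem_univ y)).trans
      (single_le_sum (f := fun x' => ∑ y', ((Pi.single x 1 : V → ℝ) x' -
        (Pi.single x 1 : V → ℝ) y') ^ 2) (fun _ _ => sum_nonneg fun _ _ => sq_nonneg _)
        (mem_univ x))
    rw [Pi.single_eq_same, Pi.single_eq_of_ne hxy.symm] at h5
    norm_num at h5
    linarith
  refine ⟨𝓛, hcard, hprop, ?_⟩
  intro φ hφ L hL c hc
  set c0 : V → V → ℝ := fun x y => φ (ρ x y) with hc0
  obtain ⟨S, hS, hmin⟩ := exists_min_image 𝓛 (ratio c0) hne
  obtain ⟨hS1, hS2⟩ := hprop S hS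
  have hr0 : 0 ≤ ratio c0 S := div_nonneg (cutCap_nonneg hφ S) (by positivity)
  obtain ⟨h1, h2⟩ := hlist c0 hφ (ratio c0 S) (by
    intro T hT
    obtain ⟨hT1, hT2⟩ := hprop T hT
    rw [← ratio_mul c0 hT1 hT2]
    exact mul_le_mul_of_nonneg_right (hmin T hT) (by positivity))
  have h3 := spectral_list (c := c0) hφ (fun x y => by rw [hc0]; simp only [hsym x y]) hr0 (F := b)
    (fun f hf => ⟨(hb hf).1, by
      obtain ⟨k, hk⟩ := eig_of_mem φ h.one_mem
      obtain ⟨μ, hμ⟩ := eig_of_mem φ (hb hf)
      refine ⟨k - μ, fun x => ?_⟩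
      have h1 : ∑ y, c0 x y * (f x - f y) = (∑ y, φ (ρ x y) * 1) * f x -
          ∑ y, φ (ρ x y) * f y := by
        rw [sum_mul, ← sum_sub_distrib]
        refine sum_congr rfl fun y _ => by simp only [hc0]; ring
      rw [h1, hk x, hμ x]; ring⟩) hspan h1 h2
  have hLpos : 0 < L := by linarith
  have hcn : ∀ x y, 0 ≤ c x y := fun x y => (hφ x y).trans (hc x y).1
  have h4 : ratio c S ≤ L * ratio c0 S := by
    rw [ratio, ratio, ← mul_div_assoc]
    apply div_le_div_of_nonneg_right _ (by positivity)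
    simp only [cutCap, mul_sum]
    exact sum_le_sum fun i _ => sum_le_sum fun j _ => (hc i j).2
  have key : ∀ u : V → ℝ, ratio c S * ∑ x, ∑ y, (u x - u y) ^ 2 ≤
      2 * L * ∑ x, ∑ y, c x y * (u x - u y) ^ 2 := by
    intro u
    have h5 : 0 ≤ ∑ x, ∑ y, (u x - u y) ^ 2 :=
      sum_nonneg fun x _ => sum_nonneg fun y _ => sq_nonneg _
    have h6 : ∑ x, ∑ y, c0 x y * (u x - u y) ^ 2 ≤ ∑ x, ∑ y, c x y * (u x - u y) ^ 2 :=
      sum_le_sum fun x _ => sum_le_sum fun y _ =>
        mul_le_mul_of_nonneg_right (hc x y).1 (sq_nonneg _)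
    calc ratio c S * ∑ x, ∑ y, (u x - u y) ^ 2
        ≤ L * ratio c0 S * ∑ x, ∑ y, (u x - u y) ^ 2 :=
          mul_le_mul_of_nonneg_right h4 h5
      _ = L * (ratio c0 S * ∑ x, ∑ y, (u x - u y) ^ 2) := by ring
      _ ≤ L * (2 * ∑ x, ∑ y, c0 x y * (u x - u y) ^ 2) :=
          mul_le_mul_of_nonneg_left (h3 u) hLpos.le
      _ ≤ L * (2 * ∑ x, ∑ y, c x y * (u x - u y) ^ 2) := by
          apply mul_le_mul_of_nonneg_left _ hLpos.le
          linarith
      _ = 2 * L * ∑ x, ∑ y, c x y * (u x - u y) ^ 2 := by ring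
  refine ⟨S, hS, key, ?_⟩
  exact gl_const (by positivity) key

end Vale.Agent.P318.R2.H202
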