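import Vale.Agent.P318.R2.H202.SchemeDefs
import Vale.Agent.P318.R2.H305.Grass
import Vale.Agent.P318.R2.H379.GgNe
import Vale.Agent.P318.R2.H990.Delsarte

/-!
# The Grassmann schemes are signed schemes
-/

open Finset Module

set_option linter.unusedSectionVars false

namespace Vale.Agent.P318.R2.H202.Grass

open Vale.Agent.P318.R2.H704 (sub_trans)
open Vale.Agent.P318.R2.H990 (delsarte)

variable {F E : Type*} [Field F] [Fintype F] [AddCommGroup E] [Module F E] [Fintype E]
  [Fintype (Submodule F E)]

lemma finrank_map_equiv (g : E ≃ₗ[F] E) (S : Submodule F E) :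
    finrank F (S.map g.toLinearMap) = finrank F S :=
  LinearEquiv.finrank_map_eq g S

lemma map_inf_equiv (g : E ≃ₗ[F] E) (S T : Submodule F E) :
    (S ⊓ T).map g.toLinearMap = S.map g.toLinearMap ⊓ T.map g.toLinearMap :=
  Submodule.map_inf _ g.injective

lemma map_le_map_equiv (g : E ≃ₗ[F] E) {S T : Submodule F E} :
    S.map g.toLinearMap ≤ T.map g.toLinearMap ↔ S ≤ T :=
  Submodule.map_le_map_iff_of_injective g.injective _ _

/-- the action on subspaces -/
def subEquiv (g : E ≃ₗ[F] E) : Submodule F E ≃ Submodule F E where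
  toFun S := S.map g.toLinearMap
  invFun S := S.map g.symm.toLinearMap
  left_inv S := by
    ext x; simp
  right_inv S := by
    ext x; simp

lemma subEquiv_apply (g : E ≃ₗ[F] E) (S : Submodule F E) :
    subEquiv g S = S.map g.toLinearMap := rfl

open Classical in
/-- an invariant function of two subspaces of given dimensions depends only on the dimension of
the intersection -/
lemma exists_fun (a b : ℕ) (cnt : Submodule F E → Submodule F E → ℝ)
    (hinv : ∀ (g : E ≃ₗ[F] E) (S J : Submodule F E),
      cnt (S.map g.toLinearMap) (J.map g.toLinearMap) = cnt S J) :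
    ∃ P : ℕ → ℝ, ∀ S J : Submodule F E, finrank F S = a → finrank F J = b →
      cnt S J = P (finrank F (S ⊓ J : Submodule F E)) := by
  refine ⟨fun t => if h : ∃ x : Submodule F E × Submodule F E, finrank F x.1 = a ∧
    finrank F x.2 = b ∧ finrank F (x.1 ⊓ x.2 : Submodule F E) = t then
      cnt h.choose.1 h.choose.2 else 0, fun S J hS hJ => ?_⟩
  have hex : ∃ x : Submodule F E × Submodule F E, finrank F x.1 = a ∧
    finrank F x.2 = b ∧ finrank F (x.1 ⊓ x.2 : Submodule F E) =
      finrank F (S ⊓ J : Submodule F E) := ⟨(S, J), hS, hJ, rfl⟩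
  dsimp only
  rw [dif_pos hex]
  obtain ⟨h1, h2, h3⟩ := hex.choose_spec
  obtain ⟨g, h4, h5⟩ := sub_trans hex.choose.1 hex.choose.2 S J (h1.trans hS.symm)
    (h2.trans hJ.symm) h3
  have h6 := hinv g hex.choose.1 hex.choose.2
  rw [h4, h5] at h6
  exact h6

open Classical in
/-- the sum over the `j`-dimensional subspaces of `S` -/
noncomputable def up (j : ℕ) (g : Submodule F E → ℝ) (S : Submodule F E) : ℝ :=
  ∑ J ∈ univ.filter (fun J : Submodule F E => finrank F J = j ∧ J ≤ S), g J

open Classical in
lemma up_sum {j : ℕ} {g : Submodule F E → ℝ}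
    (hg : ∀ L : Submodule F E, finrank F L < j →
      ∑ J ∈ univ.filter (fun J : Submodule F E => finrank F J = j ∧ L ≤ J), g J = 0)
    (a : ℕ) (P : Submodule F E → Submodule F E → Prop)
    (hP : ∀ (e : E ≃ₗ[F] E) (S T : Submodule F E),
      P (S.map e.toLinearMap) (T.map e.toLinearMap) ↔ P S T) :
    ∃ μ : ℝ, ∀ S : Submodule F E, finrank F S = a →
      ∑ T ∈ univ.filter (fun T => P S T), up j g T = μ * up j g S := by
  obtain ⟨Q, hQ⟩ := exists_fun (F := F) (E := E) a j
    (fun S J => ((univ.filter fun T : Submodule F E => P S T ∧ J ≤ T).card : ℝ)) (by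
      intro e S J
      congr 1
      symm
      refine card_bij (fun T _ => subEquiv e T) ?_ ?_ ?_
      · intro T hT
        simp only [mem_filter, mem_univ, true_and, subEquiv_apply] at hT ⊢
        exact ⟨(hP e S T).2 hT.1, (map_le_map_equiv e).2 hT.2⟩
      · intro T _ T' _ h
        exact (subEquiv e).injective h
      · intro T hT
        refine ⟨(subEquiv e).symm T, ?_, by simp⟩
        simp only [mem_filter, mem_univ, true_and] at hT ⊢
        have h1 : ((subEquiv e).symm T).map e.toLinearMap = T :=
          (subEquiv e).apply_symm_apply T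
        rw [← hP e, ← map_le_map_equiv e, h1]
        exact hT)
  obtain ⟨α, hα⟩ := delsarte j g hg Q
  refine ⟨α, fun S hS => ?_⟩
  have h1 := hα S
  rw [up, ← h1]
  simp only [up]
  have h2 : ∀ T : Submodule F E,
      ∑ J ∈ univ.filter (fun J : Submodule F E => finrank F J = j ∧ J ≤ T), g J =
      ∑ J ∈ univ.filter (fun J : Submodule F E => finrank F J = j), if J ≤ T then g J else 0 := by
    intro T
    rw [← sum_filter, filter_filter]
  simp only [h2]
  rw [sum_comm]
  refine sum_congr rfl fun J hJ => ?_
  rw [← hQ S J hS (mem_filter.1 hJ).2, ← sum_filter, filter_filter, sum_const, nsmul_eq_mul,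
    mul_comm]

open Classical in
lemma up_zero {j : ℕ} {g : Submodule F E → ℝ} {L : Submodule F E} (hL : finrank F L < j) :
    up j g L = 0 := by
  rw [up]
  refine sum_eq_zero fun J hJ => ?_
  simp only [mem_filter, mem_univ, true_and] at hJ
  have := Submodule.finrank_mono hJ.2
  omega

open Classical in
lemma up_orth {j : ℕ} {g : Submodule F E → ℝ}
    (hg : ∀ L : Submodule F E, finrank F L < j →
      ∑ J ∈ univ.filter (fun J : Submodule F E => finrank F J = j ∧ L ≤ J), g J = 0)
    (k : ℕ) {L : Submodule F E} (hL : finrank F L < j) :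
    ∑ S ∈ univ.filter (fun S : Submodule F E => finrank F S = k ∧ L ≤ S), up j g S = 0 := by
  obtain ⟨μ, hμ⟩ := up_sum hg (finrank F L) (fun L S => finrank F S = k ∧ L ≤ S) (by
    intro e S T
    rw [finrank_map_equiv, map_le_map_equiv])
  have h1 := hμ L rfl
  rw [up_zero hL, mul_zero] at h1
  rw [← h1]
  exact sum_congr (by ext; simp) (fun _ _ => rfl)

open Classical in
lemma up_eig {j : ℕ} {g : Submodule F E → ℝ}
    (hg : ∀ L : Submodule F E, finrank F L < j →
      ∑ J ∈ univ.filter (fun J : Submodule F E => finrank F J = j ∧ L ≤ J), g J = 0)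
    (k r : ℕ) : ∃ μ : ℝ, ∀ S : Submodule F E, finrank F S = k →
    ∑ T ∈ univ.filter (fun T : Submodule F E => finrank F T = k ∧
      finrank F (S ⊓ T : Submodule F E) = r), up j g T = μ * up j g S := by
  obtain ⟨μ, hμ⟩ := up_sum hg k
    (fun S T => finrank F T = k ∧ finrank F (S ⊓ T : Submodule F E) = r) (by
      intro e S T
      rw [finrank_map_equiv, ← map_inf_equiv, finrank_map_equiv])
  exact ⟨μ, fun S hS => (sum_congr (by ext; simp) fun _ _ => rfl).trans (hμ S hS)⟩

/-- the action of the general linear group -/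
def grAct (F E : Type*) [Field F] [AddCommGroup E] [Module F E] (k : ℕ) :
    (E ≃ₗ[F] E) →* Equiv.Perm (Gr F E k) where
  toFun g :=
    { toFun := fun S => ⟨S.1.map g.toLinearMap, by rw [LinearEquiv.finrank_map_eq g]; exact S.2⟩
      invFun := fun S =>
        ⟨S.1.map g.symm.toLinearMap, by rw [LinearEquiv.finrank_map_eq g.symm]; exact S.2⟩
      left_inv := fun S => by apply Subtype.ext; ext x; simp
      right_inv := fun S => by apply Subtype.ext; ext x; simp }
  map_one' := by
    ext S x
    simp
  map_mul' g h := by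
    apply Equiv.ext
    intro S
    apply Subtype.ext
    change S.1.map (g * h).toLinearMap = (S.1.map h.toLinearMap).map g.toLinearMap
    rw [← Submodule.map_comp]; rfl

lemma grAct_coe {k : ℕ} (g : E ≃ₗ[F] E) (S : Gr F E k) :
    (grAct F E k g S).1 = S.1.map g.toLinearMap := rfl

/-- coordinates -/
lemma exists_coord (j : ℕ) (hj : 2 * j ≤ finrank F E) :
    ∃ p q : E →ₗ[F] (Fin j → F), ∀ u v, ∃ w, p w = u ∧ q w = v := by
  let b := finBasis F E
  refine ⟨LinearMap.pi fun i => b.coord ⟨i, by have := i.2; omega⟩,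
    LinearMap.pi fun i => b.coord ⟨j + i, by have := i.2; omega⟩, fun u v => ?_⟩
  refine ⟨b.equivFun.symm fun t => if h : (t : ℕ) < j then u ⟨t, h⟩ else
    if h : (t : ℕ) - j < j then v ⟨t - j, h⟩ else 0, ?_, ?_⟩
  · ext i
    have hi := i.2
    simp only [LinearMap.pi_apply, Basis.coord_apply, ← Basis.equivFun_apply,
      LinearEquiv.apply_symm_apply]
    simp [hi]
  · ext i
    have hi := i.2
    simp only [LinearMap.pi_apply, Basis.coord_apply, ← Basis.equivFun_apply,
      LinearEquiv.apply_symm_apply]
    simp [hi]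

open Classical in
/-- **The Grassmann schemes are signed schemes.** -/
theorem signed_grass (k : ℕ) [Fintype (Gr F E k)] : SignedScheme (grRel F E k) := by
  have hfin : Finite (E ≃ₗ[F] E) :=
    Finite.of_injective (fun g : E ≃ₗ[F] E => (g : E → E)) DFunLike.coe_injective
  have hft : Fintype (E ≃ₗ[F] E) := Fintype.ofFinite _
  by_cases hkn : k ≤ finrank F E
  swap
  · have hemp : IsEmpty (Gr F E k) := by
      refine ⟨fun S => hkn ?_⟩
      rw [← S.2]
      exact Submodule.finrank_le S.1
    refine ⟨⟨fun S => hemp.elim S, fun r => ⟨0, fun S => hemp.elim S⟩⟩, ?_⟩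
    rw [eq_top_iff]
    intro g _
    have : g = 0 := funext fun S => hemp.elim S
    rw [this]; exact Submodule.zero_mem _
  have hinv : ∀ (g : E ≃ₗ[F] E) (S T : Gr F E k),
      grRel F E k (grAct F E k g S) (grAct F E k g T) = grRel F E k S T := by
    intro g S T
    exact (congrArg (fun X : Submodule F E => finrank F X) (map_inf_equiv g S.1 T.1).symm).trans
      (finrank_map_equiv g _)
  have htrans : ∀ S T S' T' : Gr F E k, grRel F E k S T = grRel F E k S' T' →
      ∃ g, grAct F E k g S = S' ∧ grAct F E k g T = T' := by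
    intro S T S' T' h
    obtain ⟨g, h1, h2⟩ := sub_trans S.1 T.1 S'.1 T'.1 (S.2.trans S'.2.symm) (T.2.trans T'.2.symm) h
    exact ⟨g, Subtype.ext h1, Subtype.ext h2⟩
  set n := finrank F E with hn
  set m := min k (n - k) with hm
  have h2 : ∀ j : Fin (m + 1), 2 * (j : ℕ) ≤ n := by
    intro j
    have := j.2
    omega
  choose p q hpq using fun j : Fin (m + 1) => exists_coord (F := F) (E := E) (j : ℕ) (h2 j)
  set hh : F → ℝ := fun a => (if a = 0 then 1 else 0) - (if a = 1 then 1 else 0) with hhh
  have hh0 : hh 0 ≠ 0 := by simp [hhh]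
  have hhsum : ∑ a, hh a = 0 := by simp [hhh]
  have hhtri : ∀ a, hh a = -1 ∨ hh a = 0 ∨ hh a = 1 := by
    intro a
    simp only [hhh]
    by_cases h3 : a = 0
    · subst h3; simp
    · by_cases h4 : a = 1
      · subst h4; simp
      · simp [h3, h4]
  have hpq' : ∀ (j : Fin (m + 1)) u, ∃ w, p j w = 0 ∧ q j w = u := fun j u => hpq j 0 u
  set g : ∀ j : Fin (m + 1), Submodule F E → ℝ := fun j => gg hh (p j) (q j) with hg
  have hgz : ∀ (j : Fin (m + 1)) (L : Submodule F E), finrank F L < j →
      ∑ J ∈ univ.filter (fun J : Submodule F E => finrank F J = j ∧ L ≤ J), g j J = 0 :=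
    fun j L hL => gg_zero hhsum (hpq' j) L hL
  choose C hC using fun j : Fin (m + 1) => gg_tri hhtri hhsum (hpq' j) k
  choose S0 hS0 hS0' using fun j : Fin (m + 1) => gg_ne hh0 (hpq j) k
    (by have := j.2; omega) (by have := j.2; omega)
  have hC0 : ∀ j, C j ≠ 0 := by
    intro j h3
    apply hS0' j
    have := hC j (S0 j) (hS0 j)
    rw [h3, neg_zero] at this
    tauto
  have hsub : ∀ (P : Submodule F E → Prop) (u : Submodule F E → ℝ),
      ∑ S ∈ univ.filter (fun S : Gr F E k => P S.1), u S.1 =
        ∑ S ∈ univ.filter (fun S : Submodule F E => finrank F S = k ∧ P S), u S := by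
    intro P u
    refine sum_bij (fun S _ => S.1) ?_ ?_ ?_ ?_
    · intro S hS
      simp only [mem_filter, mem_univ, true_and] at hS ⊢
      exact ⟨S.2, hS⟩
    · intro S _ T _ h
      exact Subtype.ext h
    · intro S hS
      simp only [mem_filter, mem_univ, true_and] at hS
      exact ⟨⟨S, hS.1⟩, by simpa using hS.2, rfl⟩
    · intro S _; rfl
  refine SignedScheme.of_orbits (grAct F E k) hinv htrans (I := Fin (m + 1))
    (fun j S => up j (g j) S.1 / C j) ?_ ?_ (Finset.Icc (k - m) k) ?_ ?_ ?_ ?_
  · intro j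
    exact ⟨⟨S0 j, hS0 j⟩, div_ne_zero (hS0' j) (hC0 j)⟩
  · have key : ∀ i j : Fin (m + 1), (i : ℕ) < j → ∀ e : E ≃ₗ[F] E,
        ∑ S : Gr F E k, up i (g i) (grAct F E k e S).1 * up j (g j) S.1 = 0 := by
      intro i j hij e
      have h3 : ∀ S : Gr F E k, up i (g i) (grAct F E k e S).1 * up j (g j) S.1 =
          ∑ I ∈ univ.filter (fun I : Submodule F E => finrank F I = i),
            if I ≤ (grAct F E k e S).1 then g i I * up j (g j) S.1 else 0 := by
        intro S
        rw [← sum_filter, filter_filter, ← sum_mul]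
        rfl
      simp only [h3]
      rw [sum_comm]
      refine sum_eq_zero fun I hI => ?_
      have hI' : finrank F I = i := (mem_filter.1 hI).2
      rw [← sum_filter, ← mul_sum]
      have h4 : ∀ S : Gr F E k, I ≤ (grAct F E k e S).1 ↔ I.map e.symm.toLinearMap ≤ S.1 := by
        intro S
        have h5 : (I.map e.symm.toLinearMap).map e.toLinearMap = I := by ext x; simp
        rw [grAct_coe]
        conv_lhs => rw [← h5]
        exact map_le_map_equiv e
      simp only [h4]
      rw [hsub (fun S => I.map e.symm.toLinearMap ≤ S) (fun S => up j (g j) S)]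
      rw [up_orth (hgz j) k (by rw [finrank_map_equiv, hI']; exact hij), mul_zero]
    intro i j hij e
    have h3 : ∑ S : Gr F E k, up i (g i) (grAct F E k e S).1 * up j (g j) S.1 = 0 := by
      rcases lt_or_gt_of_ne (fun h => hij (Fin.ext h) : (i : ℕ) ≠ j) with h3 | h3
      · exact key i j h3 e
      · have h4 := key j i h3 e⁻¹
        rw [← Equiv.sum_comp (grAct F E k e)] at h4
        rw [← h4]
        refine sum_congr rfl fun S _ => ?_
        rw [mul_comm]
        congr 2
        rw [← Equiv.Perm.mul_apply, ← map_mul, inv_mul_cancel, map_one]; rfl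
    rw [show ∑ S : Gr F E k, up i (g i) (grAct F E k e S).1 / C i * (up j (g j) S.1 / C j) =
      (∑ S : Gr F E k, up i (g i) (grAct F E k e S).1 * up j (g j) S.1) / (C i * C j) by
        rw [sum_div]
        refine sum_congr rfl fun S _ => ?_
        rw [div_mul_div_comm], h3, zero_div]
  · intro S T
    rw [Finset.mem_Icc]
    simp only [grRel]
    have h3 := Submodule.finrank_sup_add_finrank_inf_eq S.1 T.1
    have h4 := Submodule.finrank_le (S.1 ⊔ T.1)
    have h5 := Submodule.finrank_mono (inf_le_left : S.1 ⊓ T.1 ≤ S.1)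
    have h6 := S.2
    have h7 := T.2
    omega
  · rw [Nat.card_Icc, Fintype.card_fin]
    omega
  · intro j
    refine ⟨fun S => ?_, fun r => ?_⟩
    · have h3 := hC j S.1 S.2
      have h4 : up j (g j) S.1 = - C j ∨ up j (g j) S.1 = 0 ∨ up j (g j) S.1 = C j := h3
      dsimp only
      rcases h4 with h4 | h4 | h4
      · left; rw [h4, neg_div, div_self (hC0 j)]
      · right; left; rw [h4, zero_div]
      · right; right; rw [h4, div_self (hC0 j)]
    · obtain ⟨μ, hμ⟩ := up_eig (hgz j) k r
      refine ⟨μ, fun S => ?_⟩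
      have h3 := hsub (fun T => finrank F (S.1 ⊓ T : Submodule F E) = r) (fun T => up j (g j) T)
      have h4 := hμ S.1 S.2
      rw [← sum_div, mul_div_assoc', ← h4]
      congr 1
      refine Eq.trans ?_ (h3.trans ?_)
      · refine sum_congr ?_ fun _ _ => rfl
        ext T
        simp only [mem_filter, mem_univ, true_and]
        exact Iff.rfl
      · refine sum_congr ?_ fun _ _ => rfl
        ext T
        simp only [mem_filter, mem_univ, true_and]
  · refine one_mem_of_transitive (grAct F E k) hinv fun S T => ?_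
    obtain ⟨g, h3, -⟩ := htrans S S T T (by
      have h3 : ∀ S : Gr F E k, grRel F E k S S = k := fun S => by
        rw [grRel, inf_of_le_left (le_refl S.1)]; exact S.2
      rw [h3, h3])
    exact ⟨g, h3⟩

end Vale.Agent.P318.R2.H202.Grass
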