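import Vale.Agent.P318.R2.H202.Scheme

/-!
# Signed functions on the subspaces of a finite vector space: definitions
-/

open Finset Module

namespace Vale.Agent.P318.R2.H202.Grass

open Classical in
/-- the function `hh (trace M)` of the `j`-dimensional subspace `J`, where `J` is the graph of
`M` over the coordinates `p`, and `0` for the other subspaces -/
noncomputable def gg {F E : Type*} [Field F] [AddCommGroup E] [Module F E] {j : ℕ} (hh : F → ℝ)
    (p q : E →ₗ[F] (Fin j → F)) (J : Submodule F E) : ℝ :=
  if h : Function.Bijective (p.domRestrict J) then
    hh (LinearMap.trace F (Fin j → F)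
      ((q.domRestrict J) ∘ₗ (LinearEquiv.ofBijective (p.domRestrict J) h).symm.toLinearMap))
  else 0

end Vale.Agent.P318.R2.H202.Grass
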