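import Vale.Agent.P318.R2.H202.Scheme

/-!
# The Johnson schemes are signed schemes
-/

open Finset Equiv

set_option linter.unusedSectionVars false

namespace Vale.Agent.P318.R2.H202

lemma exists_perm {α β : Type*} [Fintype α] [DecidableEq β] (f g : α → β)
    (h : ∀ b, (univ.filter fun x => f x = b).card = (univ.filter fun x => g x = b).card) :
    ∃ σ : Perm α, ∀ x, g (σ x) = f x := by
  have e : ∀ b, Nonempty ({x // f x = b} ≃ {x // g x = b}) := by
    intro b
    rw [← Fintype.card_eq, Fintype.card_subtype, Fintype.card_subtype, h b]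
  refine ⟨(Equiv.sigmaFiberEquiv f).symm.trans
    ((Equiv.sigmaCongrRight fun b => (e b).some).trans (Equiv.sigmaFiberEquiv g)), fun x => ?_⟩
  exact ((e (f x)).some ⟨x, rfl⟩).2

section pairs

variable {n j : ℕ}

/-- indicator -/
def chi (S : Finset (Fin n)) (x : Fin n) : ℝ := if x ∈ S then 1 else 0

lemma chi_map (S : Finset (Fin n)) (σ : Perm (Fin n)) (x : Fin n) :
    chi (S.map σ.toEmbedding) x = chi S (σ.symm x) := by
  simp only [chi, Finset.mem_map_equiv]

/-- the product of the differences of the coordinates of `j` disjoint pairs -/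
def pf (a b : Fin j → Fin n) (S : Finset (Fin n)) : ℝ := ∏ i, (chi S (a i) - chi S (b i))

lemma chi_cases (S : Finset (Fin n)) (x : Fin n) : chi S x = 0 ∨ chi S x = 1 := by
  unfold chi; split_ifs <;> simp

lemma fac_tri (S : Finset (Fin n)) (x y : Fin n) :
    chi S x - chi S y = -1 ∨ chi S x - chi S y = 0 ∨ chi S x - chi S y = 1 := by
  rcases chi_cases S x with h | h <;> rcases chi_cases S y with h' | h' <;> rw [h, h'] <;> norm_num

lemma pf_tri (a b : Fin j → Fin n) (S : Finset (Fin n)) :
    pf a b S = -1 ∨ pf a b S = 0 ∨ pf a b S = 1 :=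
  tri_prod _ _ fun _ _ => fac_tri _ _ _

lemma pf_map (a b : Fin j → Fin n) (S : Finset (Fin n)) (σ : Perm (Fin n)) :
    pf a b (S.map σ.toEmbedding) = ∏ i, (chi S (σ.symm (a i)) - chi S (σ.symm (b i))) := by
  simp only [pf, chi_map]

/-- disjoint pairs -/
structure Pairs (a b : Fin j → Fin n) : Prop where
  inja : Function.Injective a
  injb : Function.Injective b
  ne : ∀ i i', a i ≠ b i'

variable {a b : Fin j → Fin n}

lemma Pairs.pf_swap (h : Pairs a b) (i : Fin j) (S : Finset (Fin n)) :
    pf a b (S.map (swap (a i) (b i)).toEmbedding) = - pf a b S := by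
  rw [pf_map, pf, ← mul_prod_erase univ _ (mem_univ i), ← mul_prod_erase univ _ (mem_univ i)]
  have h1 : ∏ i' ∈ univ.erase i, (chi S ((swap (a i) (b i)).symm (a i')) -
      chi S ((swap (a i) (b i)).symm (b i'))) = ∏ i' ∈ univ.erase i,
      (chi S (a i') - chi S (b i')) := by
    refine prod_congr rfl fun i' hi' => ?_
    have hne := (mem_erase.1 hi').1
    rw [Equiv.symm_swap, swap_apply_of_ne_of_ne (h.inja.ne hne) (h.ne i' i),
      swap_apply_of_ne_of_ne (h.ne i i').symm (h.injb.ne hne)]
  rw [h1, Equiv.symm_swap, swap_apply_left, swap_apply_right]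
  ring

/-- permutations preserving the pairs act on `pf` by a sign -/
lemma Pairs.pf_perm (h : Pairs a b) (σ : Perm (Fin n))
    (hσ : ∀ i, (σ.symm (a i) = a i ∧ σ.symm (b i) = b i) ∨
      (σ.symm (a i) = b i ∧ σ.symm (b i) = a i)) :
    ∃ s : ℝ, ∀ S, pf a b (S.map σ.toEmbedding) = s * pf a b S := by
  classical
  refine ⟨∏ i, if σ.symm (a i) = a i then (1 : ℝ) else -1, fun S => ?_⟩
  rw [pf_map, pf, ← prod_mul_distrib]
  refine prod_congr rfl fun i _ => ?_
  rcases hσ i with ⟨h1, h2⟩ | ⟨h1, h2⟩
  · rw [if_pos h1, h1, h2]; ring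
  · rw [if_neg (by rw [h1]; exact (h.ne i i).symm), h1, h2]; ring

/-- the colour of a point: its pair, or none -/
noncomputable def colour (a b : Fin j → Fin n) (x : Fin n) : Option (Fin j) := by
  classical
  exact if h : ∃ i, x = a i ∨ x = b i then some h.choose else none

lemma Pairs.colour_a (h : Pairs a b) (i : Fin j) : colour a b (a i) = some i := by
  have hex : ∃ i', a i = a i' ∨ a i = b i' := ⟨i, Or.inl rfl⟩
  rw [colour, dif_pos hex]
  rcases hex.choose_spec with h1 | h1
  · rw [← h.inja h1]
  · exact absurd h1 (h.ne _ _)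

lemma Pairs.colour_b (h : Pairs a b) (i : Fin j) : colour a b (b i) = some i := by
  have hex : ∃ i', b i = a i' ∨ b i = b i' := ⟨i, Or.inr rfl⟩
  rw [colour, dif_pos hex]
  rcases hex.choose_spec with h1 | h1
  · exact absurd h1.symm (h.ne _ _)
  · rw [← h.injb h1]

lemma Pairs.of_colour (h : Pairs a b) {x : Fin n} {i : Fin j} (hx : colour a b x = some i) :
    x = a i ∨ x = b i := by
  by_cases hex : ∃ i, x = a i ∨ x = b i
  · obtain ⟨i', h1 | h1⟩ := hex
    · rw [h1, h.colour_a, Option.some_inj] at hx
      rw [h1, hx]; simp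
    · rw [h1, h.colour_b, Option.some_inj] at hx
      rw [h1, hx]; simp
  · rw [colour, dif_neg hex] at hx
    simp at hx

/-- exactly one point of every pair -/
def Good (a b : Fin j → Fin n) (S : Finset (Fin n)) : Prop :=
  ∀ i, (a i ∈ S ∧ b i ∉ S) ∨ (a i ∉ S ∧ b i ∈ S)

lemma good_iff (S : Finset (Fin n)) : Good a b S ↔ pf a b S ≠ 0 := by
  rw [pf, prod_ne_zero_iff]
  constructor
  · intro hg i _
    rcases hg i with ⟨h1, h2⟩ | ⟨h1, h2⟩ <;> simp [chi, h1, h2]
  · intro hg i
    have := hg i (mem_univ i)
    by_cases h1 : a i ∈ S <;> by_cases h2 : b i ∈ S <;> simp [chi, h1, h2] at this ⊢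

lemma Pairs.card_pair (h : Pairs a b) {S : Finset (Fin n)} (hg : Good a b S) (i : Fin j)
    (t : Prop) [Decidable t] :
    (univ.filter fun x => (colour a b x, decide (x ∈ S)) = (some i, decide t)).card = 1 := by
  classical
  have hset : ∀ y, colour a b y = some i → (y ∈ S ↔ t) →
      (∀ z, (z = a i ∨ z = b i) → (z ∈ S ↔ t) → z = y) →
      (univ.filter fun x => (colour a b x, decide (x ∈ S)) = (some i, decide t)) = {y} := by
    intro y hy1 hy2 hy3
    ext z
    simp only [mem_filter, mem_univ, true_and, mem_singleton, Prod.mk.injEq, decide_eq_decide]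
    constructor
    · rintro ⟨h1, h2⟩
      exact hy3 z (h.of_colour h1) h2
    · rintro rfl
      exact ⟨hy1, hy2⟩
  rcases hg i with ⟨h1, h2⟩ | ⟨h1, h2⟩
  · by_cases ht : t
    · rw [hset (a i) (h.colour_a i) (by simp [h1, ht]), card_singleton]
      rintro z (rfl | rfl) hz
      · rfl
      · exact absurd (hz.2 ht) h2
    · rw [hset (b i) (h.colour_b i) (by simp [h2, ht]), card_singleton]
      rintro z (rfl | rfl) hz
      · exact absurd (hz.1 h1) ht
      · rfl
  · by_cases ht : t
    · rw [hset (b i) (h.colour_b i) (by simp [h2, ht]), card_singleton]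
      rintro z (rfl | rfl) hz
      · exact absurd (hz.2 ht) h1
      · rfl
    · rw [hset (a i) (h.colour_a i) (by simp [h1, ht]), card_singleton]
      rintro z (rfl | rfl) hz
      · rfl
      · exact absurd (hz.1 h2) ht

lemma card_split (F : Fin n → Option (Fin j) × Bool) (t : Bool) :
    (univ.filter fun x => (F x).2 = t).card =
      (univ.filter fun x => F x = (none, t)).card +
        ∑ i, (univ.filter fun x => F x = (some i, t)).card := by
  classical
  have h1 : (univ.filter fun x => (F x).2 = t).card =
      ∑ o : Option (Fin j), (univ.filter fun x => F x = (o, t)).card := by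
    rw [card_eq_sum_card_fiberwise (f := fun x => (F x).1) (t := univ) (fun x _ => mem_univ _)]
    refine sum_congr rfl fun o _ => ?_
    congr 1
    ext x
    simp only [mem_filter, mem_univ, true_and, Prod.ext_iff]
    tauto
  rw [h1, Fintype.sum_option]

/-- two good sets of the same size are exchanged by a permutation preserving the pairs -/
lemma Pairs.exists_perm (h : Pairs a b) {S S' : Finset (Fin n)} (hg : Good a b S)
    (hg' : Good a b S') (hcard : S.card = S'.card) :
    ∃ σ : Perm (Fin n), S.map σ.toEmbedding = S' ∧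
      ∀ i, (σ.symm (a i) = a i ∧ σ.symm (b i) = b i) ∨
        (σ.symm (a i) = b i ∧ σ.symm (b i) = a i) := by
  classical
  obtain ⟨σ, hσ⟩ := H202.exists_perm (fun x => (colour a b x, decide (x ∈ S)))
    (fun x => (colour a b x, decide (x ∈ S'))) (by
      rintro ⟨o, t⟩
      rcases o with _ | i
      · have e1 := card_split (fun x => (colour a b x, decide (x ∈ S))) t
        have e2 := card_split (fun x => (colour a b x, decide (x ∈ S'))) t
        have e3 : ∀ i, (univ.filter fun x => (colour a b x, decide (x ∈ S)) = (some i, t)).card =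
            1 := by
          intro i
          have := h.card_pair hg i (t = true)
          simpa using this
        have e4 : ∀ i, (univ.filter fun x => (colour a b x, decide (x ∈ S')) = (some i, t)).card =
            1 := by
          intro i
          have := h.card_pair hg' i (t = true)
          simpa using this
        simp only [e3] at e1
        simp only [e4] at e2
        have e5 : (univ.filter fun x => decide (x ∈ S) = t).card =
            (univ.filter fun x => decide (x ∈ S') = t).card := by
          cases t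
          · have f1 : (univ.filter fun x => decide (x ∈ S) = false) = Sᶜ := by ext; simp
            have f2 : (univ.filter fun x => decide (x ∈ S') = false) = S'ᶜ := by ext; simp
            rw [f1, f2, card_compl, card_compl, hcard]
          · have f1 : (univ.filter fun x => decide (x ∈ S) = true) = S := by ext; simp
            have f2 : (univ.filter fun x => decide (x ∈ S') = true) = S' := by ext; simp
            rw [f1, f2, hcard]
        omega
      · have e3 := h.card_pair hg i (t = true)
        have e4 := h.card_pair hg' i (t = true)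
        simp only [Bool.decide_eq_true] at e3 e4
        rw [e3, e4])
  simp only [Prod.mk.injEq, decide_eq_decide] at hσ
  refine ⟨σ, ?_, ?_⟩
  · ext x
    rw [Finset.mem_map_equiv]
    have := (hσ (σ.symm x)).2
    rw [Equiv.apply_symm_apply] at this
    exact this.symm
  · intro i
    have ha : σ.symm (a i) = a i ∨ σ.symm (a i) = b i := by
      apply h.of_colour
      have := (hσ (σ.symm (a i))).1
      rw [Equiv.apply_symm_apply, h.colour_a] at this
      exact this.symm
    have hb : σ.symm (b i) = a i ∨ σ.symm (b i) = b i := by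
      apply h.of_colour
      have := (hσ (σ.symm (b i))).1
      rw [Equiv.apply_symm_apply, h.colour_b] at this
      exact this.symm
    have hne : σ.symm (a i) ≠ σ.symm (b i) := fun h' => h.ne i i (σ.symm.injective h')
    rcases ha with h1 | h1 <;> rcases hb with h2 | h2
    · exact absurd (h1.trans h2.symm) hne
    · exact Or.inl ⟨h1, h2⟩
    · exact Or.inr ⟨h1, h2⟩
    · exact absurd (h1.trans h2.symm) hne

end pairs

section johnson

variable {n k : ℕ}

/-- the `k`-element subsets of `{0, ..., n-1}` -/
abbrev Slice (n k : ℕ) : Type := {S : Finset (Fin n) // S.card = k}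

/-- the Johnson relation: the size of the intersection -/
def interRel (n k : ℕ) : Slice n k → Slice n k → ℕ := fun S T => (S.1 ∩ T.1).card

/-- the action of the symmetric group -/
def sliceAct (n k : ℕ) : Perm (Fin n) →* Perm (Slice n k) where
  toFun σ :=
    { toFun := fun S => ⟨S.1.map σ.toEmbedding, by rw [card_map]; exact S.2⟩
      invFun := fun S => ⟨S.1.map σ.symm.toEmbedding, by rw [card_map]; exact S.2⟩
      left_inv := fun S => by
        apply Subtype.ext
        ext x; simp [Finset.mem_map_equiv]
      right_inv := fun S => by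
        apply Subtype.ext
        ext x; simp [Finset.mem_map_equiv] }
  map_one' := by
    ext S x
    change x ∈ S.1.map (Equiv.toEmbedding 1) ↔ x ∈ S.1
    rw [Finset.mem_map_equiv]; rfl
  map_mul' σ τ := by
    ext S x
    change x ∈ S.1.map (σ * τ).toEmbedding ↔
      x ∈ (S.1.map τ.toEmbedding).map σ.toEmbedding
    rw [Finset.mem_map_equiv, Finset.mem_map_equiv, Finset.mem_map_equiv]; rfl

lemma sliceAct_coe (σ : Perm (Fin n)) (S : Slice n k) :
    (sliceAct n k σ S).1 = S.1.map σ.toEmbedding := rfl

lemma inter_inv (σ : Perm (Fin n)) (S T : Slice n k) :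
    interRel n k (sliceAct n k σ S) (sliceAct n k σ T) = interRel n k S T := by
  simp only [interRel, sliceAct_coe, ← Finset.map_inter, card_map]

lemma inter_trans (S T S' T' : Slice n k) (h : interRel n k S T = interRel n k S' T') :
    ∃ σ, sliceAct n k σ S = S' ∧ sliceAct n k σ T = T' := by
  classical
  simp only [interRel] at h
  obtain ⟨σ, hσ⟩ := exists_perm (fun x => (decide (x ∈ S.1), decide (x ∈ T.1)))
    (fun x => (decide (x ∈ S'.1), decide (x ∈ T'.1))) (by
      have c1 := card_sdiff_add_card_inter S.1 T.1
      have c2 := card_sdiff_add_card_inter S'.1 T'.1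
      have c3 := card_sdiff_add_card_inter T.1 S.1
      have c4 := card_sdiff_add_card_inter T'.1 S'.1
      rw [inter_comm] at c3 c4
      have hS := S.2
      have hS' := S'.2
      have hT := T.2
      have hT' := T'.2
      have c5 := card_union_add_card_inter S.1 T.1
      have c6 := card_union_add_card_inter S'.1 T'.1
      have c7 := card_compl (S.1 ∪ T.1)
      have c8 := card_compl (S'.1 ∪ T'.1)
      rintro ⟨s, t⟩
      cases s <;> cases t
      · have f1 : (univ.filter fun x => (decide (x ∈ S.1), decide (x ∈ T.1)) =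
            (false, false)) = (S.1 ∪ T.1)ᶜ := by ext; simp
        have f2 : (univ.filter fun x => (decide (x ∈ S'.1), decide (x ∈ T'.1)) =
            (false, false)) = (S'.1 ∪ T'.1)ᶜ := by ext; simp
        rw [f1, f2]; omega
      · have f1 : (univ.filter fun x => (decide (x ∈ S.1), decide (x ∈ T.1)) =
            (false, true)) = T.1 \ S.1 := by ext; simp [and_comm]
        have f2 : (univ.filter fun x => (decide (x ∈ S'.1), decide (x ∈ T'.1)) =
            (false, true)) = T'.1 \ S'.1 := by ext; simp [and_comm]
        rw [f1, f2]; omega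
      · have f1 : (univ.filter fun x => (decide (x ∈ S.1), decide (x ∈ T.1)) =
            (true, false)) = S.1 \ T.1 := by ext; simp
        have f2 : (univ.filter fun x => (decide (x ∈ S'.1), decide (x ∈ T'.1)) =
            (true, false)) = S'.1 \ T'.1 := by ext; simp
        rw [f1, f2]; omega
      · have f1 : (univ.filter fun x => (decide (x ∈ S.1), decide (x ∈ T.1)) =
            (true, true)) = S.1 ∩ T.1 := by ext; simp
        have f2 : (univ.filter fun x => (decide (x ∈ S'.1), decide (x ∈ T'.1)) =
            (true, true)) = S'.1 ∩ T'.1 := by ext; simp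
        rw [f1, f2]; omega)
  simp only [Prod.mk.injEq, decide_eq_decide] at hσ
  refine ⟨σ, ?_, ?_⟩
  · apply Subtype.ext
    rw [sliceAct_coe]
    ext x
    rw [Finset.mem_map_equiv]
    have := (hσ (σ.symm x)).1
    rw [Equiv.apply_symm_apply] at this
    exact this.symm
  · apply Subtype.ext
    rw [sliceAct_coe]
    ext x
    rw [Finset.mem_map_equiv]
    have := (hσ (σ.symm x)).2
    rw [Equiv.apply_symm_apply] at this
    exact this.symm

lemma pf_mem {j : ℕ} {a b : Fin j → Fin n} (h : Pairs a b) :
    (fun S : Slice n k => pf a b S.1) ∈ signedEigen (interRel n k) := by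
  refine ⟨fun S => pf_tri a b S.1, fun r => ?_⟩
  let F : Slice n k → ℝ := fun S =>
    ∑ T ∈ @Finset.filter _ (fun T => interRel n k S T = r) (fun _ => Classical.propDecidable _)
      univ, pf a b T.1
  have hequiv : ∀ (σ : Perm (Fin n)) (s : ℝ),
      (∀ S, pf a b (S.map σ.toEmbedding) = s * pf a b S) → ∀ S : Slice n k,
      F (sliceAct n k σ S) = s * F S := by
    intro σ s hs S
    exact @sum_equiv _ _ _ (interRel n k) (fun S => pf a b S.1) (sliceAct n k σ) s
      (fun x y => inter_inv σ x y) (fun x => hs x.1) r (fun _ => Classical.propDecidable _) S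
  have hzero : ∀ S : Slice n k, ¬ Good a b S.1 → F S = 0 := by
    intro S hS
    unfold Good at hS
    push Not at hS
    obtain ⟨i, h1, h2⟩ := hS
    have h3 : a i ∈ S.1 ↔ b i ∈ S.1 := by
      constructor
      · exact h1
      · intro h4
        by_contra h5
        exact h2 h5 h4
    have h4 := hequiv (swap (a i) (b i)) (-1) (fun S => by rw [h.pf_swap]; ring) S
    have h5 : sliceAct n k (swap (a i) (b i)) S = S := by
      apply Subtype.ext
      rw [sliceAct_coe]
      ext x
      rw [Finset.mem_map_equiv, Equiv.symm_swap, swap_apply_def]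
      split_ifs with h6 h7
      · rw [h6]; exact h3.symm
      · rw [h7]; exact h3
      · rfl
    rw [h5] at h4
    linarith
  by_cases hex : ∃ S : Slice n k, Good a b S.1
  · obtain ⟨S0, hS0⟩ := hex
    refine ⟨F S0 / pf a b S0.1, fun S => ?_⟩
    change F S = F S0 / pf a b S0.1 * pf a b S.1
    by_cases hS : Good a b S.1
    · obtain ⟨σ, h1, h2⟩ := h.exists_perm hS0 hS (S0.2.trans S.2.symm)
      obtain ⟨s, hs⟩ := h.pf_perm σ h2
      have h3 := hequiv σ s hs S0
      have h4 : sliceAct n k σ S0 = S := Subtype.ext h1
      have h5 := hs S0.1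
      rw [h1] at h5
      rw [h4] at h3
      have h6 : pf a b S0.1 ≠ 0 := (good_iff S0.1).1 hS0
      rw [h3, h5]
      field_simp
    · have h1 : pf a b S.1 = 0 := by
        by_contra h2
        exact hS ((good_iff S.1).2 h2)
      rw [h1, mul_zero, hzero S hS]
  · push Not at hex
    refine ⟨0, fun S => ?_⟩
    change F S = 0 * pf a b S.1
    rw [hzero S (hex S), zero_mul]

/-- orthogonality of products with different numbers of pairs -/
lemma pf_orth {i j : ℕ} (hij : i < j) {u v : Fin i → Fin n} {a b : Fin j → Fin n}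
    (h : Pairs a b) : ∑ S : Slice n k, pf u v S.1 * pf a b S.1 = 0 := by
  classical
  have hexp : ∀ S : Slice n k, pf u v S.1 = ∑ A ∈ (univ : Finset (Fin i)).powerset,
      (∏ l ∈ A, chi S.1 (u l)) * ∏ l ∈ univ \ A, (- chi S.1 (v l)) := by
    intro S
    rw [pf, ← Finset.prod_add]
    refine prod_congr rfl fun l _ => by ring
  simp only [hexp, sum_mul]
  rw [sum_comm]
  apply sum_eq_zero
  intro A _
  -- a pair that is not used
  obtain ⟨m, hm⟩ : ∃ m : Fin j, (∀ l ∈ A, u l ≠ a m ∧ u l ≠ b m) ∧
      (∀ l ∈ univ \ A, v l ≠ a m ∧ v l ≠ b m) := by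
    by_contra hcon
    push Not at hcon
    have hmap : ∀ m : Fin j, ∃ l : Fin i, (l ∈ A ∧ (u l = a m ∨ u l = b m)) ∨
        (l ∉ A ∧ (v l = a m ∨ v l = b m)) := by
      intro m
      by_cases h1 : ∀ l ∈ A, u l ≠ a m ∧ u l ≠ b m
      · obtain ⟨l, hl, h2⟩ := hcon m h1
        simp only [mem_sdiff, mem_univ, true_and] at hl
        refine ⟨l, Or.inr ⟨hl, ?_⟩⟩
        by_cases h3 : v l = a m
        · exact Or.inl h3
        · exact Or.inr (h2 h3)
      · push Not at h1
        obtain ⟨l, hl, h2⟩ := h1
        refine ⟨l, Or.inl ⟨hl, ?_⟩⟩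
        by_cases h3 : u l = a m
        · exact Or.inl h3
        · exact Or.inr (h2 h3)
    choose l hl using hmap
    have hinj : Function.Injective l := by
      intro m m' hmm
      have key : ∀ x, (x = a m ∨ x = b m) → (x = a m' ∨ x = b m') → m = m' := by
        rintro x (h1 | h1) (h2 | h2)
        · exact h.inja (h1.symm.trans h2)
        · exact absurd (h1.symm.trans h2) (h.ne _ _)
        · exact absurd (h2.symm.trans h1) (h.ne _ _)
        · exact h.injb (h1.symm.trans h2)
      rcases hl m with ⟨h1, h2⟩ | ⟨h1, h2⟩ <;> rcases hl m' with ⟨h3, h4⟩ | ⟨h3, h4⟩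
      · rw [← hmm] at h4; exact key _ h2 h4
      · rw [← hmm] at h3; exact absurd h1 h3
      · rw [← hmm] at h3; exact absurd h3 h1
      · rw [← hmm] at h4; exact key _ h2 h4
    have := Fintype.card_le_of_injective l hinj
    simp at this
    omega
  have hs := Equiv.sum_comp (sliceAct n k (swap (a m) (b m))) (fun S : Slice n k =>
    (∏ l ∈ A, chi S.1 (u l)) * (∏ l ∈ univ \ A, (- chi S.1 (v l))) * pf a b S.1)
  have hneg : ∀ S : Slice n k,
      (∏ l ∈ A, chi (sliceAct n k (swap (a m) (b m)) S).1 (u l)) *
        (∏ l ∈ univ \ A, (- chi (sliceAct n k (swap (a m) (b m)) S).1 (v l))) *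
        pf a b (sliceAct n k (swap (a m) (b m)) S).1 =
      - ((∏ l ∈ A, chi S.1 (u l)) * (∏ l ∈ univ \ A, (- chi S.1 (v l))) * pf a b S.1) := by
    intro S
    simp only [sliceAct_coe]
    rw [h.pf_swap]
    have e1 : ∏ l ∈ A, chi (S.1.map (swap (a m) (b m)).toEmbedding) (u l) =
        ∏ l ∈ A, chi S.1 (u l) := by
      refine prod_congr rfl fun l hl => ?_
      rw [chi_map, Equiv.symm_swap, swap_apply_of_ne_of_ne (hm.1 l hl).1 (hm.1 l hl).2]
    have e2 : ∏ l ∈ univ \ A, (- chi (S.1.map (swap (a m) (b m)).toEmbedding) (v l)) =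
        ∏ l ∈ univ \ A, (- chi S.1 (v l)) := by
      refine prod_congr rfl fun l hl => ?_
      rw [chi_map, Equiv.symm_swap, swap_apply_of_ne_of_ne (hm.2 l hl).1 (hm.2 l hl).2]
    rw [e1, e2]; ring
  simp only [hneg, sum_neg_distrib] at hs
  linarith

/-- **The Johnson schemes are signed schemes.** -/
theorem signed_slice (n k : ℕ) : SignedScheme (interRel n k) := by
  classical
  by_cases hkn : k ≤ n
  swap
  · have hemp : IsEmpty (Slice n k) := by
      refine ⟨fun S => hkn ?_⟩
      have := card_le_univ S.1
      rw [S.2, Fintype.card_fin] at this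
      exact this
    refine ⟨⟨fun S => hemp.elim S, fun r => ⟨0, fun S => hemp.elim S⟩⟩, ?_⟩
    rw [eq_top_iff]
    intro g _
    have : g = 0 := funext fun S => hemp.elim S
    rw [this]; exact Submodule.zero_mem _
  set m := min k (n - k) with hm
  have h2 : ∀ j : Fin (m + 1), 2 * (j : ℕ) ≤ n := by
    intro j
    have := j.2
    omega
  let a : ∀ j : Fin (m + 1), Fin j → Fin n := fun j i => ⟨2 * i, by have := h2 j; have := i.2; omega⟩
  let b : ∀ j : Fin (m + 1), Fin j → Fin n :=
    fun j i => ⟨2 * i + 1, by have := h2 j; have := i.2; omega⟩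
  have hpairs : ∀ j, Pairs (a j) (b j) := by
    intro j
    refine ⟨fun x y h => ?_, fun x y h => ?_, fun x y h => ?_⟩
    · have := congrArg Fin.val h
      simp only [a] at this
      exact Fin.ext (by omega)
    · have := congrArg Fin.val h
      simp only [b] at this
      exact Fin.ext (by omega)
    · have := congrArg Fin.val h
      simp only [a, b] at this
      omega
  have hmapa : ∀ (j : Fin (m + 1)) (σ : Perm (Fin n)) (S : Slice n k),
      pf (a j) (b j) (sliceAct n k σ S).1 =
        pf (fun i => σ.symm (a j i)) (fun i => σ.symm (b j i)) S.1 := by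
    intro j σ S
    rw [sliceAct_coe, pf_map]; rfl
  refine SignedScheme.of_orbits (sliceAct n k) inter_inv inter_trans (I := Fin (m + 1))
    (fun j S => pf (a j) (b j) S.1) ?_ ?_ (Finset.Icc (k - m) k) ?_ ?_
    (fun j => pf_mem (hpairs j)) ?_
  · intro j
    -- a good set
    set A : Finset (Fin n) := univ.map ⟨a j, (hpairs j).inja⟩ with hA
    have hAc : A.card = j := by rw [hA, card_map, card_univ, Fintype.card_fin]
    set B : Finset (Fin n) := univ.filter fun x => 2 * (j : ℕ) ≤ x with hB
    have hBc : k - j ≤ B.card := by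
      have : B.card = n - 2 * j := by
        have h3 : B.map Fin.valEmbedding = Finset.Ico (2 * (j : ℕ)) n := by
          ext x
          simp only [hB, mem_map, mem_filter, mem_univ, true_and, Fin.valEmbedding_apply,
            Finset.mem_Ico]
          constructor
          · rintro ⟨y, h4, rfl⟩
            exact ⟨h4, y.2⟩
          · rintro ⟨h4, h5⟩
            exact ⟨⟨x, h5⟩, h4, rfl⟩
        rw [← card_map Fin.valEmbedding, h3, Nat.card_Ico]
      have := j.2
      omega
    obtain ⟨B', hB', hB'c⟩ := exists_subset_card_eq hBc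
    have hdisj : Disjoint A B' := by
      rw [disjoint_left]
      intro x hx hx'
      have h3 := hB' hx'
      rw [hA, mem_map] at hx
      obtain ⟨i, -, rfl⟩ := hx
      simp only [hB, mem_filter, mem_univ, true_and, Function.Embedding.coeFn_mk, a] at h3
      have := i.2
      omega
    have hScard : (A ∪ B').card = k := by
      rw [card_union_of_disjoint hdisj, hAc, hB'c]
      have := j.2
      omega
    refine ⟨⟨A ∪ B', hScard⟩, ?_⟩
    apply (good_iff _).1
    intro i
    left
    constructor
    · simp [hA]
    · intro h3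
      rw [mem_union] at h3
      rcases h3 with h3 | h3
      · rw [hA, mem_map] at h3
        obtain ⟨i', -, h4⟩ := h3
        exact (hpairs j).ne _ _ h4
      · have h4 := hB' h3
        simp only [hB, mem_filter, mem_univ, true_and, b] at h4
        have := i.2
        omega
  · intro i j hij σ
    rcases lt_or_gt_of_ne (fun h => hij (Fin.ext h) : (i : ℕ) ≠ j) with h3 | h3
    · simp only [hmapa]
      exact pf_orth h3 (hpairs j)
    · have h4 : ∑ S : Slice n k, pf (fun l => σ (a j l)) (fun l => σ (b j l)) S.1 *
          pf (a i) (b i) S.1 = 0 := pf_orth h3 (hpairs i)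
      rw [← Equiv.sum_comp (sliceAct n k σ)] at h4
      rw [← h4]
      refine sum_congr rfl fun S _ => ?_
      rw [mul_comm]
      congr 1
      rw [sliceAct_coe, pf_map]
      simp only [Equiv.symm_apply_apply]
      rfl
  · intro S T
    rw [Finset.mem_Icc]
    have h3 : (S.1 ∩ T.1).card ≤ k := (card_le_card inter_subset_left).trans S.2.le
    have h4 := card_sdiff_add_card_inter S.1 T.1
    have h5 : (S.1 \ T.1).card ≤ n - k := by
      have h6 : S.1 \ T.1 ⊆ T.1ᶜ := by
        intro x hx
        simpa using (mem_sdiff.1 hx).2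
      have h7 := card_le_card h6
      rw [card_compl, Fintype.card_fin, T.2] at h7
      exact h7
    have hS := S.2
    simp only [interRel]
    omega
  · rw [Nat.card_Icc, Fintype.card_fin]
    omega
  · refine one_mem_of_transitive (sliceAct n k) inter_inv fun S T => ?_
    obtain ⟨σ, h3, -⟩ := inter_trans S S T T (by
      simp only [interRel, inter_self]; rw [S.2, T.2])
    exact ⟨σ, h3⟩

end johnson

end Vale.Agent.P318.R2.H202
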