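import Vale.Agent.P318.R2.H202.Scheme

/-!
# Capacities within a constant factor of capacities of signed schemes
-/

open Finset

set_option linter.unusedSectionVars false

namespace Vale.Agent.P318.R2.H202

open Vale.Agent.P318.H867

section near

variable {V : Type*} [Fintype V] [DecidableEq V] {c c0 : V → V → ℝ}

lemma phi_of_subsingleton (hV : ¬ Nontrivial V) (c : V → V → ℝ) : phi c = 0 := by
  rw [not_nontrivial_iff_subsingleton] at hV
  unfold phi
  convert Real.sInf_empty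
  ext r
  simp only [Set.mem_ofPred_eq, Set.mem_empty_iff_false, iff_false]
  rintro ⟨S, ⟨a, ha⟩, ⟨b, hb⟩, -⟩
  rw [Subsingleton.elim b a] at hb
  simp [ha] at hb

lemma phi_le_mul {L : ℝ} (hL : 0 < L) (hc : ∀ x y, 0 ≤ c x y)
    (h : ∀ x y, c x y ≤ L * c0 x y) : phi c ≤ L * phi c0 := by
  by_cases hV : Nontrivial V
  · rw [← div_le_iff₀' hL]
    apply le_phi
    intro S h1 h2
    rw [div_mul_eq_mul_div, div_le_iff₀ hL]
    refine (phi_mul_le hc S).trans ?_
    simp only [cutCap, sum_mul]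
    refine sum_le_sum fun i _ => sum_le_sum fun j _ => ?_
    rw [mul_comm]; exact h i j
  · rw [phi_of_subsingleton hV, phi_of_subsingleton hV, mul_zero]

/-- from a spectral inequality with constant `K` to the Goemans-Linial value -/
theorem gl_const [Nontrivial V] {r K : ℝ} (hK : 0 < K) (hsp : ∀ h : V → ℝ,
    r * ∑ x, ∑ y, (h x - h y) ^ 2 ≤ K * ∑ x, ∑ y, c x y * (h x - h y) ^ 2) :
    r ≤ K * glValue c := by
  rw [← div_le_iff₀' hK]
  apply le_csInf
  · obtain ⟨d, hd, h1⟩ := feasible V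
    exact ⟨_, d, hd, h1, rfl⟩
  · rintro q ⟨d, ⟨⟨x, hx⟩, -⟩, h1, rfl⟩
    rw [div_le_iff₀' hK]
    have h2 : ∀ i j, d i j = ∑ k, (x i k - x j k) ^ 2 := by
      intro i j
      rw [hx, EuclideanSpace.norm_sq_eq]
      refine sum_congr rfl fun k _ => ?_
      simp
    have h3 : ∑ i, ∑ j, d i j = 2 := by linarith
    have hcomm : ∀ F : V → V → V → ℝ, ∑ i, ∑ j, ∑ k, F i j k = ∑ k, ∑ i, ∑ j, F i j k := by
      intro F
      rw [sum_congr rfl fun i _ => sum_comm (f := fun j k => F i j k)]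
      exact sum_comm
    have h4 : ∑ i, ∑ j, d i j = ∑ k, ∑ i, ∑ j, (x i k - x j k) ^ 2 := by
      simp_rw [h2]
      exact hcomm fun i j k => (x i k - x j k) ^ 2
    have h5 : ∑ i, ∑ j, c i j * d i j = ∑ k, ∑ i, ∑ j, c i j * (x i k - x j k) ^ 2 := by
      simp_rw [h2, mul_sum]
      exact hcomm fun i j k => c i j * (x i k - x j k) ^ 2
    have h6 : r * ∑ k, ∑ i, ∑ j, (x i k - x j k) ^ 2 ≤
        K * ∑ k, ∑ i, ∑ j, c i j * (x i k - x j k) ^ 2 := by
      rw [mul_sum, mul_sum]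
      exact sum_le_sum fun k _ => hsp fun i => x i k
    rw [← h4, ← h5, h3] at h6
    linarith

end near

end Vale.Agent.P318.R2.H202
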