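import Vale.Agent.P318.R2.H202.Core

/-!
# Signed schemes: the main inequality, products, complete relations, and a spanning criterion
-/

open Finset

set_option linter.unusedSectionVars false

namespace Vale.Agent.P318.R2.H202

open Vale.Agent.P318.H867

section main

variable {V R : Type*} [Fintype V]

theorem eig_of_mem {ρ : V → V → R} (φ : R → ℝ) {f : V → ℝ} (hf : f ∈ signedEigen ρ) :
    ∃ μ : ℝ, ∀ x, ∑ y, φ (ρ x y) * f y = μ * f x := by
  classical
  choose μ hμ using hf.2
  refine ⟨∑ r ∈ univ.image (fun p : V × V => ρ p.1 p.2), φ r * μ r, fun x => ?_⟩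
  rw [← sum_fiberwise_of_maps_to (s := univ)
    (t := univ.image (fun p : V × V => ρ p.1 p.2)) (g := fun y => ρ x y)
    (fun y _ => mem_image.2 ⟨(x, y), mem_univ _, rfl⟩), sum_mul]
  refine sum_congr rfl fun r _ => ?_
  have h1 : ∑ y ∈ univ.filter (fun y => ρ x y = r), φ (ρ x y) * f y =
      ∑ y ∈ univ.filter (fun y => ρ x y = r), φ r * f y := by
    refine sum_congr rfl fun y hy => ?_
    rw [(mem_filter.1 hy).2]
  rw [h1, ← mul_sum]
  have h2 := hμ r x
  rw [mul_assoc, ← h2]

/-- **Main theorem for signed schemes**: the spectral inequality with constant `2`, for all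
functions, and the Goemans-Linial gap is at most `2`. -/
theorem SignedScheme.main [DecidableEq V] {ρ : V → V → R} (h : SignedScheme ρ) (φ : R → ℝ)
    (hc : ∀ x y, 0 ≤ φ (ρ x y)) (hs : ∀ x y, φ (ρ x y) = φ (ρ y x)) :
    (∀ u : V → ℝ, phi (fun x y => φ (ρ x y)) * ∑ x, ∑ y, (u x - u y) ^ 2 ≤
      2 * ∑ x, ∑ y, φ (ρ x y) * (u x - u y) ^ 2) ∧
    phi (fun x y => φ (ρ x y)) ≤ 2 * glValue (fun x y => φ (ρ x y)) := by
  have key : ∀ u : V → ℝ, phi (fun x y => φ (ρ x y)) * ∑ x, ∑ y, (u x - u y) ^ 2 ≤
      2 * ∑ x, ∑ y, φ (ρ x y) * (u x - u y) ^ 2 := by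
    refine spectral (c := fun x y => φ (ρ x y)) hc hs (F := signedEigen ρ) ?_ h.span
    intro f hf
    refine ⟨hf.1, ?_⟩
    obtain ⟨k, hk⟩ := eig_of_mem φ h.one_mem
    obtain ⟨μ, hμ⟩ := eig_of_mem φ hf
    refine ⟨k - μ, fun x => ?_⟩
    have h1 : ∑ y, φ (ρ x y) * (f x - f y) = (∑ y, φ (ρ x y) * 1) * f x -
        ∑ y, φ (ρ x y) * f y := by
      rw [sum_mul, ← sum_sub_distrib]
      refine sum_congr rfl fun y _ => by ring
    rw [h1, hk x, hμ x]; ring
  exact ⟨key, gl_of_spectral key⟩

/-- functions that take the values `-1, 0, 1` are closed under products -/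
lemma tri_mul {a b : ℝ} (ha : a = -1 ∨ a = 0 ∨ a = 1) (hb : b = -1 ∨ b = 0 ∨ b = 1) :
    a * b = -1 ∨ a * b = 0 ∨ a * b = 1 := by
  rcases ha with rfl | rfl | rfl <;> rcases hb with rfl | rfl | rfl <;> norm_num

lemma tri_prod {ι : Type*} (s : Finset ι) (f : ι → ℝ)
    (h : ∀ i ∈ s, f i = -1 ∨ f i = 0 ∨ f i = 1) :
    (∏ i ∈ s, f i) = -1 ∨ (∏ i ∈ s, f i) = 0 ∨ (∏ i ∈ s, f i) = 1 :=
  Finset.prod_induction f (fun a => a = -1 ∨ a = 0 ∨ a = 1) (fun _ _ => tri_mul)
    (Or.inr (Or.inr rfl)) h

end main

section prod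

variable {ι : Type*} [Fintype ι] [DecidableEq ι] {V R : ι → Type*} [∀ i, Fintype (V i)]

/-- the product relation: the tuple of the relations of the coordinates -/
def prodRel {ι : Type*} {V R : ι → Type*} (ρ : ∀ i, V i → V i → R i) :
    (∀ i, V i) → (∀ i, V i) → (∀ i, R i) :=
  fun x y i => ρ i (x i) (y i)

lemma prod_mem {ρ : ∀ i, V i → V i → R i} {f : ∀ i, V i → ℝ}
    (hf : ∀ i, f i ∈ signedEigen (ρ i)) :
    (fun x : ∀ i, V i => ∏ i, f i (x i)) ∈ signedEigen (prodRel ρ) := by
  classical
  refine ⟨fun x => tri_prod _ _ fun i _ => (hf i).1 (x i), fun r => ?_⟩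
  choose μ hμ using fun i => (hf i).2 (r i)
  refine ⟨∏ i, μ i, fun x => ?_⟩
  have h1 : (univ.filter fun y : ∀ i, V i => prodRel ρ x y = r) =
      Fintype.piFinset fun i => univ.filter fun z => ρ i (x i) z = r i := by
    ext y
    simp [Fintype.mem_piFinset, prodRel, funext_iff]
  rw [← prod_mul_distrib]
  have h2 : ∏ i, μ i * f i (x i) =
      ∏ i, ∑ z ∈ univ.filter (fun z => ρ i (x i) z = r i), f i z := by
    refine prod_congr rfl fun i _ => ?_
    rw [← hμ i (x i)]
  rw [h2, Finset.prod_univ_sum, ← h1]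
  refine sum_congr ?_ fun _ _ => rfl
  ext y; simp

lemma span_eq_top_of_single {W : Type*} [Fintype W] [DecidableEq W] {S : Set (W → ℝ)}
    (h : ∀ a, (Pi.single a 1 : W → ℝ) ∈ Submodule.span ℝ S) : Submodule.span ℝ S = ⊤ := by
  rw [eq_top_iff]
  intro g _
  have h1 : g = ∑ a, g a • (Pi.single a 1 : W → ℝ) := by
    ext x
    simp [Finset.sum_apply, Pi.single_apply]
  rw [h1]
  exact Submodule.sum_mem _ fun a _ => Submodule.smul_mem _ _ (h a)

theorem SignedScheme.pi {ρ : ∀ i, V i → V i → R i} (h : ∀ i, SignedScheme (ρ i)) :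
    SignedScheme (prodRel ρ) := by
  classical
  refine ⟨?_, ?_⟩
  · have h1 := prod_mem (fun i => (h i).one_mem)
    simpa using h1
  · have key : ∀ (s : Finset ι) (g : ∀ i, V i → ℝ), (∀ i, i ∉ s → g i ∈ signedEigen (ρ i)) →
        (fun x : ∀ i, V i => ∏ i, g i (x i)) ∈ Submodule.span ℝ (signedEigen (prodRel ρ)) := by
      intro s
      induction s using Finset.induction_on with
      | empty =>
        intro g hg
        exact Submodule.subset_span (prod_mem fun i => hg i (by simp))
      | insert j s hj ih =>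
        intro g hg
        have hsplit : ∀ (u : V j → ℝ), (fun x : ∀ i, V i => ∏ i, Function.update g j u i (x i)) =
            fun x => u (x j) * ∏ i ∈ univ.erase j, g i (x i) := by
          intro u
          ext x
          rw [← mul_prod_erase univ _ (mem_univ j), Function.update_self]
          congr 1
          refine prod_congr rfl fun i hi => ?_
          rw [Function.update_of_ne (mem_erase.1 hi).1]
        have h1 : ∀ u ∈ Submodule.span ℝ (signedEigen (ρ j)),
            (fun x : ∀ i, V i => ∏ i, Function.update g j u i (x i)) ∈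
              Submodule.span ℝ (signedEigen (prodRel ρ)) := by
          intro u hu
          induction hu using Submodule.span_induction with
          | mem u hu =>
            apply ih
            intro i hi
            by_cases hij : i = j
            · subst hij; rw [Function.update_self]; exact hu
            · rw [Function.update_of_ne hij]
              exact hg i (by simp [hij, hi])
          | zero =>
            rw [hsplit]
            convert Submodule.zero_mem _ using 1
            ext x; simp
          | add u v _ _ h₁ h₂ =>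
            rw [hsplit] at h₁ h₂ ⊢
            convert Submodule.add_mem _ h₁ h₂ using 1
            ext x; simp [add_mul]
          | smul a u _ h₁ =>
            rw [hsplit] at h₁ ⊢
            convert Submodule.smul_mem _ a h₁ using 1
            ext x; simp [mul_assoc]
        have h2 := h1 (g j) (by rw [(h j).span]; trivial)
        rwa [Function.update_eq_self] at h2
    apply span_eq_top_of_single
    intro a
    have h1 := key univ (fun i => Pi.single (a i) 1) (by simp)
    convert h1 using 1
    ext x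
    by_cases hx : x = a
    · subst hx; simp
    · rw [Pi.single_eq_of_ne hx]
      obtain ⟨i, hi⟩ : ∃ i, x i ≠ a i := by
        by_contra hcon
        push Not at hcon
        exact hx (funext hcon)
      rw [prod_eq_zero (mem_univ i)]
      rw [Pi.single_eq_of_ne hi]

end prod

section sets

variable {V : Type*} [Fintype V]

/-- the complete relation on any finite set -/
theorem signed_eq : SignedScheme (fun x y : V => x = y) := by
  classical
  have hone : (fun _ : V => (1 : ℝ)) ∈ signedEigen (fun x y : V => x = y) := by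
    refine ⟨fun _ => Or.inr (Or.inr rfl), fun r => ?_⟩
    by_cases hr : r
    · refine ⟨1, fun x => ?_⟩
      refine (sum_congr (s₂ := {x}) (by ext y; simp [hr, eq_comm]) fun _ _ => rfl).trans ?_
      simp
    · refine ⟨(Fintype.card V : ℝ) - 1, fun x => ?_⟩
      refine (sum_congr (s₂ := univ.erase x) (by ext y; simp [hr, eq_comm])
        fun _ _ => rfl).trans ?_
      rw [sum_const, card_erase_of_mem (mem_univ x), card_univ, nsmul_eq_mul,
        Nat.cast_sub (Fintype.card_pos_iff.2 ⟨x⟩)]
      simp
  have hdiff : ∀ a b : V, (Pi.single a 1 - Pi.single b 1 : V → ℝ) ∈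
      signedEigen (fun x y : V => x = y) := by
    intro a b
    refine ⟨fun x => ?_, fun r => ?_⟩
    · have hv : ∀ c : V, (Pi.single c 1 : V → ℝ) x = 0 ∨ (Pi.single c 1 : V → ℝ) x = 1 := by
        intro c
        rw [Pi.single_apply]; split_ifs <;> simp
      rw [Pi.sub_apply]
      rcases hv a with h1 | h1 <;> rcases hv b with h2 | h2 <;> rw [h1, h2] <;> norm_num
    · by_cases hr : r
      · refine ⟨1, fun x => ?_⟩
        refine (sum_congr (s₂ := {x}) (by ext y; simp [hr, eq_comm]) fun _ _ => rfl).trans ?_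
        rw [sum_singleton, one_mul]
      · refine ⟨-1, fun x => ?_⟩
        refine (sum_congr (s₂ := univ.erase x) (by ext y; simp [hr, eq_comm])
          fun _ _ => rfl).trans ?_
        have h2 : ∑ y, (Pi.single a 1 - Pi.single b 1 : V → ℝ) y = 0 := by
          simp [Pi.single_apply, sum_sub_distrib]
        rw [← add_sum_erase _ _ (mem_univ x)] at h2
        linarith
  refine ⟨hone, ?_⟩
  apply span_eq_top_of_single
  intro a
  have hN : (Fintype.card V : ℝ) ≠ 0 := by
    have : 0 < Fintype.card V := Fintype.card_pos_iff.2 ⟨a⟩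
    positivity
  have h1 : (Pi.single a 1 : V → ℝ) = (Fintype.card V : ℝ)⁻¹ •
      ((fun _ => (1 : ℝ)) + ∑ b, (Pi.single a 1 - Pi.single b 1 : V → ℝ)) := by
    ext x
    have h2 : ∑ b, (Pi.single b 1 : V → ℝ) x = 1 := by simp [Pi.single_apply]
    have h4 : (∑ b, (Pi.single a 1 - Pi.single b 1 : V → ℝ)) x =
        (Fintype.card V : ℝ) * (Pi.single a 1 : V → ℝ) x - 1 := by
      rw [Finset.sum_apply]
      simp only [Pi.sub_apply]
      rw [sum_sub_distrib, h2, sum_const, card_univ, nsmul_eq_mul]
    rw [Pi.smul_apply, Pi.add_apply, h4, smul_eq_mul]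
    have h3 : (1 : ℝ) + ((Fintype.card V : ℝ) * (Pi.single a 1 : V → ℝ) x - 1) =
      (Fintype.card V : ℝ) * (Pi.single a 1 : V → ℝ) x := by ring
    rw [h3, ← mul_assoc, inv_mul_cancel₀ hN, one_mul]
  rw [h1]
  exact Submodule.smul_mem _ _ (Submodule.add_mem _ (Submodule.subset_span hone)
    (Submodule.sum_mem _ fun b _ => Submodule.subset_span (hdiff a b)))

end sets

section spanning

variable {V R G : Type*} [Fintype V] [Group G] [Fintype G] (act : G →* Equiv.Perm V)
  {ρ : V → V → R}

/-- signed eigenfunctions are preserved by symmetries of the relation -/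
lemma comp_mem (hinv : ∀ g x y, ρ (act g x) (act g y) = ρ x y) {f : V → ℝ}
    (hf : f ∈ signedEigen ρ) (g : G) : (fun x => f (act g x)) ∈ signedEigen ρ := by
  classical
  refine ⟨fun x => hf.1 _, fun r => ?_⟩
  obtain ⟨μ, hμ⟩ := hf.2 r
  refine ⟨μ, fun x => ?_⟩
  rw [← hμ]
  refine sum_bij (fun y _ => act g y) ?_ ?_ ?_ ?_
  · intro y hy
    simp only [mem_filter, mem_univ, true_and] at hy ⊢
    rw [hinv]; exact hy
  · intro y _ y' _ h
    exact (act g).injective h
  · intro y hy
    simp only [mem_filter, mem_univ, true_and] at hy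
    refine ⟨(act g).symm y, ?_, by simp⟩
    simp only [mem_filter, mem_univ, true_and]
    rw [← hinv g]; simpa using hy
  · intro y _; rfl

/-- **Spanning criterion.**  `m` nonzero functions with pairwise orthogonal `G`-orbits, where
`ρ` has at most `m` values and separates exactly the `G`-orbits of pairs: the translates span. -/
theorem span_of_orbits [DecidableEq V] (hinv : ∀ g x y, ρ (act g x) (act g y) = ρ x y)
    (htrans : ∀ x y x' y', ρ x y = ρ x' y' → ∃ g, act g x = x' ∧ act g y = y')
    {I : Type*} [Fintype I] [DecidableEq I] (f : I → V → ℝ) (hf0 : ∀ i, ∃ x, f i x ≠ 0)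
    (horth : ∀ i j, i ≠ j → ∀ g, ∑ x, f i (act g x) * f j x = 0)
    (K : Finset R) (hK : ∀ x y, ρ x y ∈ K) (hcard : K.card ≤ Fintype.card I) (a : V) :
    (Pi.single a 1 : V → ℝ) ∈
      Submodule.span ℝ {u | ∃ i g, u = fun x => f i (act g x)} := by
  classical
  -- kernels
  set z : I → V → V → ℝ := fun i x y => ∑ g, f i (act g x) * f i (act g y) with hz
  have zinv : ∀ i h x y, z i (act h x) (act h y) = z i x y := by
    intro i h x y
    simp only [hz]
    rw [← Equiv.sum_comp (Equiv.mulRight h)
      (fun g => f i (act g x) * f i (act g y))]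
    refine sum_congr rfl fun g _ => ?_
    simp [map_mul]
  have zρ : ∀ i x y x' y', ρ x y = ρ x' y' → z i x y = z i x' y' := by
    intro i x y x' y' h
    obtain ⟨g, h1, h2⟩ := htrans _ _ _ _ h
    rw [← h1, ← h2, zinv]
  -- realised values
  set K' : Finset R := univ.image (fun p : V × V => ρ p.1 p.2) with hK'
  have hK'K : K' ⊆ K := by
    intro r hr
    obtain ⟨p, -, rfl⟩ := mem_image.1 hr
    exact hK _ _
  have hrep : ∀ r : K', ∃ p : V × V, ρ p.1 p.2 = r := by
    rintro ⟨r, hr⟩
    obtain ⟨p, -, h⟩ := mem_image.1 hr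
    exact ⟨p, h⟩
  choose rep hrep using hrep
  set zz : I → K' → ℝ := fun i r => z i (rep r).1 (rep r).2 with hzz
  have hzz' : ∀ i x y, zz i ⟨ρ x y, mem_image.2 ⟨(x, y), mem_univ _, rfl⟩⟩ = z i x y := by
    intro i x y
    exact zρ i _ _ _ _ (hrep _)
  have hli : LinearIndependent ℝ zz := by
    rw [Fintype.linearIndependent_iff]
    intro α hα j
    have h1 : ∀ x y, ∑ i, α i * z i x y = 0 := by
      intro x y
      have := congrFun hα ⟨ρ x y, mem_image.2 ⟨(x, y), mem_univ _, rfl⟩⟩
      simpa [Finset.sum_apply, hzz'] using this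
    have h2 : ∀ i, i ≠ j → ∀ x, ∑ y, z i x y * f j y = 0 := by
      intro i hij x
      simp only [hz, sum_mul]
      rw [sum_comm]
      refine sum_eq_zero fun g _ => ?_
      have : ∑ y, f i (act g x) * f i (act g y) * f j y =
          f i (act g x) * ∑ y, f i (act g y) * f j y := by
        rw [mul_sum]; refine sum_congr rfl fun y _ => by ring
      rw [this, horth i j hij g, mul_zero]
    have h3 : α j * ∑ x, ∑ y, f j x * z j x y * f j y = 0 := by
      have h4 : ∑ x, ∑ y, f j x * (∑ i, α i * z i x y) * f j y = 0 := by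
        refine sum_eq_zero fun x _ => sum_eq_zero fun y _ => by rw [h1]; ring
      have h5 : ∀ x, ∑ y, f j x * (∑ i, α i * z i x y) * f j y =
          α j * ∑ y, f j x * z j x y * f j y := by
        intro x
        have e1 : ∑ y, f j x * (∑ i, α i * z i x y) * f j y =
            ∑ i, α i * (f j x * ∑ y, z i x y * f j y) := by
          simp_rw [mul_sum, sum_mul]
          rw [sum_comm]
          refine sum_congr rfl fun i _ => sum_congr rfl fun y _ => by ring
        rw [e1, ← add_sum_erase _ _ (mem_univ j)]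
        rw [sum_eq_zero (s := univ.erase j) fun i hi => by
          rw [h2 i (mem_erase.1 hi).1]; ring]
        rw [add_zero, mul_sum, mul_sum, mul_sum]
        refine sum_congr rfl fun y _ => by ring
      simp_rw [h5] at h4
      rwa [← mul_sum] at h4
    have h6 : 0 < ∑ x, ∑ y, f j x * z j x y * f j y := by
      have h7 : ∑ x, ∑ y, f j x * z j x y * f j y =
          ∑ g, (∑ x, f j (act g x) * f j x) ^ 2 := by
        simp only [hz]
        simp_rw [pow_two, Finset.sum_mul_sum]
        simp_rw [mul_sum, sum_mul]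
        rw [sum_congr rfl fun x _ => sum_comm, sum_comm]
        refine sum_congr rfl fun g _ => sum_congr rfl fun x _ => sum_congr rfl fun y _ => by ring
      rw [h7]
      apply sum_pos' (fun g _ => sq_nonneg _)
      refine ⟨1, mem_univ _, ?_⟩
      obtain ⟨x0, hx0⟩ := hf0 j
      have : 0 < ∑ x, f j (act 1 x) * f j x := by
        apply sum_pos'
        · intro x _; simpa using mul_self_nonneg (f j x)
        · exact ⟨x0, mem_univ _, by simpa using mul_self_pos.2 hx0⟩
      positivity
    rcases mul_eq_zero.1 h3 with h | h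
    · exact h
    · exact absurd h h6.ne'
  have hcard' : Fintype.card I = Module.finrank ℝ (K' → ℝ) := by
    apply le_antisymm hli.fintype_card_le_finrank
    rw [Module.finrank_fintype_fun_eq_card, Fintype.card_coe]
    exact (card_le_card hK'K).trans hcard
  have hsp := hli.span_eq_top_of_card_eq_finrank' hcard'
  have hdiag : (fun r : K' => if ∃ x, ρ x x = r then (1 : ℝ) else 0) ∈
      Submodule.span ℝ (Set.range zz) := by rw [hsp]; trivial
  rw [Submodule.mem_span_range_iff_exists_fun] at hdiag
  obtain ⟨α, hα⟩ := hdiag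
  have hker : ∀ x y, (if x = y then (1 : ℝ) else 0) = ∑ i, α i * z i x y := by
    intro x y
    have h1 := congrFun hα ⟨ρ x y, mem_image.2 ⟨(x, y), mem_univ _, rfl⟩⟩
    simp only [Finset.sum_apply, Pi.smul_apply, smul_eq_mul, hzz'] at h1
    rw [h1]
    by_cases hxy : x = y
    · subst hxy
      rw [if_pos rfl, if_pos ⟨x, rfl⟩]
    · rw [if_neg hxy, if_neg]
      rintro ⟨w, hw⟩
      obtain ⟨g, h2, h3⟩ := htrans _ _ _ _ hw
      exact hxy (h2.symm.trans h3)
  have hfin : (Pi.single a 1 : V → ℝ) =
      ∑ i, ∑ g, (α i * f i (act g a)) • (fun x => f i (act g x)) := by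
    ext x
    have h1 := hker x a
    simp only [Finset.sum_apply, Pi.smul_apply, smul_eq_mul, Pi.single_apply, h1, hz, mul_sum]
    refine sum_congr rfl fun i _ => sum_congr rfl fun g _ => by ring
  rw [hfin]
  exact Submodule.sum_mem _ fun i _ => Submodule.sum_mem _ fun g _ =>
    Submodule.smul_mem _ _ (Submodule.subset_span ⟨i, g, rfl⟩)

/-- signed schemes from orbits of signed eigenfunctions -/
theorem SignedScheme.of_orbits (hinv : ∀ g x y, ρ (act g x) (act g y) = ρ x y)
    (htrans : ∀ x y x' y', ρ x y = ρ x' y' → ∃ g, act g x = x' ∧ act g y = y')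
    {I : Type*} [Fintype I] [DecidableEq I] (f : I → V → ℝ) (hf0 : ∀ i, ∃ x, f i x ≠ 0)
    (horth : ∀ i j, i ≠ j → ∀ g, ∑ x, f i (act g x) * f j x = 0)
    (K : Finset R) (hK : ∀ x y, ρ x y ∈ K) (hcard : K.card ≤ Fintype.card I)
    (hf : ∀ i, f i ∈ signedEigen ρ) (hone : (fun _ => 1) ∈ signedEigen ρ) : SignedScheme ρ := by
  classical
  refine ⟨hone, span_eq_top_of_single fun a => ?_⟩
  refine Submodule.span_mono ?_ (span_of_orbits act hinv htrans f hf0 horth K hK hcard a)
  rintro u ⟨i, g, rfl⟩
  exact comp_mem act hinv (hf i) g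

/-- the constant function is an eigenfunction when the symmetries are transitive -/
lemma one_mem_of_transitive (hinv : ∀ g x y, ρ (act g x) (act g y) = ρ x y)
    (ht : ∀ x y, ∃ g, act g x = y) : (fun _ : V => (1 : ℝ)) ∈ signedEigen ρ := by
  classical
  refine ⟨fun _ => Or.inr (Or.inr rfl), fun r => ?_⟩
  by_cases hV : Nonempty V
  · obtain ⟨x0⟩ := hV
    refine ⟨∑ y ∈ univ.filter (fun y => ρ x0 y = r), 1, fun x => ?_⟩
    obtain ⟨g, hg⟩ := ht x x0
    rw [mul_one]
    refine sum_bij (fun y _ => act g y) ?_ ?_ ?_ ?_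
    · intro y hy
      simp only [mem_filter, mem_univ, true_and] at hy ⊢
      rw [← hg, hinv]; exact hy
    · intro y _ y' _ h
      exact (act g).injective h
    · intro y hy
      simp only [mem_filter, mem_univ, true_and] at hy
      refine ⟨(act g).symm y, ?_, by simp⟩
      simp only [mem_filter, mem_univ, true_and]
      rw [← hinv g, hg]; simpa using hy
    · intro y _; rfl
  · rw [not_nonempty_iff] at hV
    exact ⟨0, fun x => hV.elim x⟩

/-- equivariance of the relation sums -/
lemma sum_equiv {f : V → ℝ} {g : Equiv.Perm V} {s : ℝ} (hg : ∀ x y, ρ (g x) (g y) = ρ x y)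
    (hf : ∀ x, f (g x) = s * f x) (r : R) [DecidablePred fun q : R => q = r] (x : V) :
    ∑ y ∈ univ.filter (fun y => ρ (g x) y = r), f y =
      s * ∑ y ∈ univ.filter (fun y => ρ x y = r), f y := by
  rw [mul_sum]
  symm
  refine sum_bij (fun y _ => g y) ?_ ?_ ?_ ?_
  · intro y hy
    simp only [mem_filter, mem_univ, true_and] at hy ⊢
    rw [hg]; exact hy
  · intro y _ y' _ h
    exact g.injective h
  · intro y hy
    simp only [mem_filter, mem_univ, true_and] at hy
    refine ⟨g.symm y, ?_, by simp⟩
    simp only [mem_filter, mem_univ, true_and]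
    rw [← hg]; simpa using hy
  · intro y _; exact (hf y).symm

end spanning

end Vale.Agent.P318.R2.H202
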