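import Vale.Agent.P318.R2.H202.Sym

/-!
# All shapes, and the theorem for the symmetric group
-/

open Finset Equiv

set_option linter.unusedSectionVars false

namespace Vale.Agent.P318.R2.H202

variable {n : ℕ}

/-- a tableau whose columns have the lengths of the given list -/
theorem exists_tab (l : List ℕ) (hl : l.sum = n) :
    ∃ T : Tab n, ∀ k, (univ.filter fun x => T.r x = k).card = l.countP (fun m => k < m) := by
  have hcard : Fintype.card ((i : Fin l.length) × Fin (l.get i)) = n := by
    rw [Fintype.card_sigma]
    simp only [Fintype.card_fin]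
    rw [← hl, ← List.sum_ofFn, List.ofFn_get]
  let e : ((i : Fin l.length) × Fin (l.get i)) ≃ Fin n := Fintype.equivFinOfCardEq hcard
  refine ⟨⟨fun x => ((e.symm x).2 : ℕ), fun x => ((e.symm x).1 : ℕ), ?_, ?_⟩, ?_⟩
  · intro x y h1 h2
    apply e.symm.injective
    rcases hx : e.symm x with ⟨i, a⟩
    rcases hy : e.symm y with ⟨j, b⟩
    rw [hx, hy] at h1 h2
    simp only at h1 h2
    obtain rfl : i = j := Fin.ext h2
    obtain rfl : a = b := Fin.ext h1
    rfl
  · intro x k hk
    rcases hx : e.symm x with ⟨i, a⟩
    rw [hx] at hk
    simp only at hk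
    refine ⟨e ⟨i, ⟨k, hk.trans a.2⟩⟩, ?_, ?_⟩
    · rw [e.symm_apply_apply]
    · rw [e.symm_apply_apply]
  · intro k
    have h1 : (univ.filter fun x : Fin n => ((e.symm x).2 : ℕ) = k).card =
        (univ.filter fun s : (i : Fin l.length) × Fin (l.get i) => (s.2 : ℕ) = k).card := by
      apply card_bij (fun x _ => e.symm x)
      · intro x hx; simpa using hx
      · intro x _ y _ h; exact e.symm.injective h
      · intro s hs
        refine ⟨e s, ?_, e.symm_apply_apply s⟩
        rw [mem_filter] at hs ⊢
        refine ⟨mem_univ _, ?_⟩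
        rw [e.symm_apply_apply]
        exact hs.2
    change (univ.filter fun x : Fin n => ((e.symm x).2 : ℕ) = k).card = _
    rw [h1, card_filter, Fintype.sum_sigma]
    have h2 : ∀ i : Fin l.length, (∑ a : Fin (l.get i), if (a : ℕ) = k then 1 else 0) =
        if k < l.get i then 1 else 0 := by
      intro i
      split_ifs with h
      · rw [sum_eq_single ⟨k, h⟩]
        · simp
        · intro b _ hb
          rw [if_neg]
          intro h3
          exact hb (Fin.ext h3)
        · simp
      · apply sum_eq_zero
        intro a _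
        rw [if_neg]
        intro h3
        exact h (h3 ▸ a.2)
    simp only [h2]
    have h3 : ∀ l : List ℕ, (∑ i : Fin l.length, if k < l.get i then 1 else 0) =
        l.countP (fun m => k < m) := by
      intro l
      induction l with
      | nil => simp
      | cons a l ih =>
        rw [List.countP_cons, ← ih]
        simp only [List.length_cons]
        rw [Fin.sum_univ_succ]
        by_cases h : k < a <;> simp [h, add_comm]
    exact h3 l

/-- the parts are determined by the numbers of parts larger than `k` -/
lemma parts_eq {s t : Multiset ℕ} (hs : 0 ∉ s) (ht : 0 ∉ t)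
    (h : ∀ k, s.countP (fun m => k < m) = t.countP (fun m => k < m)) : s = t := by
  have key : ∀ (s : Multiset ℕ) (v : ℕ), s.countP (fun m => v < m) =
      s.count (v + 1) + s.countP (fun m => v + 1 < m) := by
    intro s v
    induction s using Multiset.induction_on with
    | empty => simp
    | cons a s ih =>
      rw [Multiset.countP_cons, Multiset.countP_cons, Multiset.count_cons, ih]
      split_ifs <;> omega
  ext v
  rcases v with _ | v
  · rw [Multiset.count_eq_zero_of_notMem hs, Multiset.count_eq_zero_of_notMem ht]
  · have h1 := key s v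
    have h2 := key t v
    rw [h v, h (v + 1)] at h1
    omega

/-- a tableau for every partition -/
noncomputable def tab (p : n.Partition) : Tab n :=
  (exists_tab p.parts.toList (by rw [Multiset.sum_toList, p.parts_sum])).choose

lemma tab_count (p : n.Partition) (k : ℕ) :
    (univ.filter fun x => (tab p).r x = k).card = p.parts.countP (fun m => k < m) := by
  rw [tab, (exists_tab p.parts.toList (by rw [Multiset.sum_toList, p.parts_sum])).choose_spec k]
  conv_rhs => rw [← Multiset.coe_toList p.parts, Multiset.coe_countP]

lemma tab_ne {p q : n.Partition} (h : p ≠ q) :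
    ∃ k, (univ.filter fun x => (tab p).r x = k).card ≠
      (univ.filter fun x => (tab q).r x = k).card := by
  by_contra hcon
  push Not at hcon
  apply h
  apply Nat.Partition.ext
  apply parts_eq
  · intro h0; exact absurd (p.parts_pos h0) (lt_irrefl _)
  · intro h0; exact absurd (q.parts_pos h0) (lt_irrefl _)
  · intro k
    rw [← tab_count, ← tab_count, hcon k]

/-- two-sided multiplication -/
def biMul (n : ℕ) : (Perm (Fin n) × Perm (Fin n)) →* Perm (Perm (Fin n)) where
  toFun gh :=
    { toFun := fun x => gh.1 * x * gh.2⁻¹
      invFun := fun x => gh.1⁻¹ * x * gh.2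
      left_inv := fun x => by group
      right_inv := fun x => by group }
  map_one' := by ext x : 1; simp
  map_mul' a b := by
    ext x : 1
    simp [mul_assoc]

@[simp] lemma biMul_apply (gh : Perm (Fin n) × Perm (Fin n)) (x : Perm (Fin n)) :
    biMul n gh x = gh.1 * x * gh.2⁻¹ := rfl

/-- **The conjugacy scheme of the symmetric group is a signed scheme.** -/
theorem signed_perm (n : ℕ) : SignedScheme (conjRel n) := by
  classical
  have hinv : ∀ gh x y, conjRel n (biMul n gh x) (biMul n gh y) = conjRel n x y := by
    intro gh x y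
    simp only [biMul_apply, conjRel]
    have : (gh.1 * x * gh.2⁻¹)⁻¹ * (gh.1 * y * gh.2⁻¹) = gh.2 * (x⁻¹ * y) * gh.2⁻¹ := by group
    rw [this, Perm.cycleType_conj]
  refine SignedScheme.of_orbits (biMul n) hinv ?_ (I := n.Partition) (fun p => (tab p).f)
    ?_ ?_ (univ.image fun g : Perm (Fin n) => g.cycleType) ?_ ?_ (fun p => (tab p).f_mem) ?_
  · intro x y x' y' h
    obtain ⟨c, hc⟩ := isConj_iff.1 (Perm.isConj_iff_cycleType_eq.2 h)
    refine ⟨(x' * c * x⁻¹, c), ?_, ?_⟩
    · simp only [biMul_apply]; group
    · simp only [biMul_apply]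
      have : x' * c * x⁻¹ * y * c⁻¹ = x' * (c * (x⁻¹ * y) * c⁻¹) := by group
      rw [this, hc]; group
  · intro p
    exact ⟨1, by rw [Tab.f_one]; norm_num⟩
  · intro p q hpq gh
    simp only [biMul_apply]
    rcases le_total (∑ x, (tab p).r x) (∑ x, (tab q).r x) with h | h
    · exact (tab p).orth (tab q) h (tab_ne hpq) gh.1 gh.2⁻¹
    · have h1 := (tab q).orth (tab p) h (tab_ne hpq.symm) gh.1⁻¹ gh.2
      rw [← Equiv.sum_comp (biMul n gh)
        (fun x => (tab q).f (gh.1⁻¹ * x * gh.2) * (tab p).f x)] at h1
      rw [← h1]
      refine sum_congr rfl fun x _ => ?_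
      simp only [biMul_apply]
      have : gh.1⁻¹ * (gh.1 * x * gh.2⁻¹) * gh.2 = x := by group
      rw [this, mul_comm]
  · intro x y
    exact mem_image_of_mem _ (mem_univ _)
  · have h1 : (univ.image fun g : Perm (Fin n) => g.cycleType) ⊆
        (univ : Finset (Fintype.card (Fin n)).Partition).image
          fun p => p.parts.filter fun m => 2 ≤ m := by
      intro r hr
      obtain ⟨g, -, rfl⟩ := mem_image.1 hr
      exact mem_image.2 ⟨g.partition, mem_univ _, Perm.filter_parts_partition_eq_cycleType⟩
    refine (card_le_card h1).trans (card_image_le.trans ?_)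
    rw [card_univ, Fintype.card_fin]
  · refine one_mem_of_transitive (biMul n) hinv fun x y => ⟨(y * x⁻¹, 1), ?_⟩
    simp only [biMul_apply]; group

end Vale.Agent.P318.R2.H202
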