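import Vale.Agent.P318.R2.H202.Scheme

/-!
# Nested (wreath) products of signed schemes
-/

open Finset

set_option linter.unusedSectionVars false

namespace Vale.Agent.P318.R2.H202

variable {V W R Q : Type*}

variable [Fintype V] [Fintype W]

lemma sum_or_const {σ : W → W → Q} {f : W → ℝ} (hf : f ∈ signedEigen σ) :
    (∑ y, f y = 0) ∨ ∃ c, ∀ x, f x = c := by
  obtain ⟨μ, hμ⟩ := eig_of_mem (fun _ => (1 : ℝ)) hf
  by_cases h0 : ∑ y, f y = 0
  · exact Or.inl h0
  · right
    simp only [one_mul] at hμ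
    refine ⟨(∑ y, f y) / μ, fun x => ?_⟩
    have hμ0 : μ ≠ 0 := by
      rintro rfl
      apply h0
      rw [hμ x]; ring
    rw [hμ x]; field_simp

lemma filter_inl {ρ : V → V → R} {σ : W → W → Q} (r : R) (x : V × W) (g : V × W → ℝ)
    [DecidablePred fun y : V × W => nestRel ρ σ x y = Sum.inl r] :
    ∑ y ∈ univ.filter (fun y => nestRel ρ σ x y = Sum.inl r), g y =
      ∑ a, ∑ b, (by classical exact if (x.1 ≠ a ∧ ρ x.1 a = r) then g (a, b) else (0 : ℝ)) := by
  classical
  rw [sum_filter, Fintype.sum_prod_type]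
  refine sum_congr rfl fun a _ => sum_congr rfl fun b _ => ?_
  by_cases h : x.1 = a
  · simp [nestRel, h]
  · simp [nestRel, h]

lemma filter_inr {ρ : V → V → R} {σ : W → W → Q} (q : Q) (x : V × W) (g : V × W → ℝ)
    [DecidablePred fun y : V × W => nestRel ρ σ x y = Sum.inr q]
    [DecidablePred fun b : W => σ x.2 b = q] :
    ∑ y ∈ univ.filter (fun y => nestRel ρ σ x y = Sum.inr q), g y =
      ∑ b ∈ univ.filter (fun b => σ x.2 b = q), g (x.1, b) := by
  classical
  rw [sum_filter, Fintype.sum_prod_type, sum_filter]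
  rw [← add_sum_erase _ _ (mem_univ x.1)]
  have h1 : ∑ a ∈ univ.erase x.1, ∑ b, (if nestRel ρ σ x (a, b) = Sum.inr q then g (a, b) else 0) =
      0 := by
    refine sum_eq_zero fun a ha => sum_eq_zero fun b _ => ?_
    have h2 : x.1 ≠ a := (mem_erase.1 ha).1.symm
    simp [nestRel, h2]
  rw [h1, add_zero]
  refine sum_congr rfl fun b _ => ?_
  simp [nestRel]

lemma nest_fst {ρ : V → V → R} {σ : W → W → Q} (hd : ∀ x y, ρ x x = ρ y y)
    (hσ : (fun _ : W => (1 : ℝ)) ∈ signedEigen σ) {f : V → ℝ} (hf : f ∈ signedEigen ρ) :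
    (fun x : V × W => f x.1) ∈ signedEigen (nestRel ρ σ) := by
  classical
  refine ⟨fun x => hf.1 _, fun r => ?_⟩
  rcases r with r | q
  · obtain ⟨μ, hμ⟩ := hf.2 r
    by_cases hV : Nonempty V
    swap
    · exact ⟨0, fun x => (hV ⟨x.1⟩).elim⟩
    obtain ⟨v0⟩ := hV
    refine ⟨(Fintype.card W : ℝ) * (μ - if ρ v0 v0 = r then 1 else 0), fun x => ?_⟩
    rw [filter_inl]
    have h1 : ∑ a, ∑ _b : W, (if (x.1 ≠ a ∧ ρ x.1 a = r) then f a else (0 : ℝ)) =
        (Fintype.card W : ℝ) * ∑ a, (if (x.1 ≠ a ∧ ρ x.1 a = r) then f a else (0 : ℝ)) := by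
      rw [mul_sum]
      refine sum_congr rfl fun a _ => ?_
      rw [sum_const, card_univ, nsmul_eq_mul]
    have h2 : ∑ a, (if (x.1 ≠ a ∧ ρ x.1 a = r) then f a else (0 : ℝ)) =
        ∑ a ∈ univ.filter (fun a => ρ x.1 a = r), f a - (if ρ v0 v0 = r then f x.1 else 0) := by
      rw [sum_filter, eq_sub_iff_add_eq]
      have h3 : (if ρ v0 v0 = r then f x.1 else (0 : ℝ)) =
          ∑ a, if x.1 = a then (if ρ v0 v0 = r then f x.1 else 0) else 0 := by
        rw [sum_ite_eq]; simp
      rw [h3, ← sum_add_distrib]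
      refine sum_congr rfl fun a _ => ?_
      by_cases h4 : x.1 = a
      · subst h4
        rw [hd x.1 v0]; simp
      · simp [h4]
    have h5 : ∀ s : ℝ, s = μ * f x.1 → s - (if ρ v0 v0 = r then f x.1 else 0) =
        (μ - if ρ v0 v0 = r then 1 else 0) * f x.1 := by
      intro s hs
      rw [hs]; split_ifs <;> ring
    refine Eq.trans ?_ (h1.trans ?_)
    · rfl
    · rw [h2, h5 _ ?_]
      · ring
      · rw [← hμ x.1]
  · obtain ⟨μ, hμ⟩ := hσ.2 q
    refine ⟨μ, fun x => ?_⟩
    rw [filter_inr]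
    have h1 := hμ x.2
    simp only [sum_const, nsmul_eq_mul, mul_one] at h1 ⊢
    rw [← h1]

lemma nest_snd {ρ : V → V → R} {σ : W → W → Q} {f : W → ℝ} (hf : f ∈ signedEigen σ)
    (h0 : ∑ y, f y = 0) (a : V) [DecidableEq V] :
    (fun x : V × W => if x.1 = a then f x.2 else 0) ∈ signedEigen (nestRel ρ σ) := by
  classical
  refine ⟨fun x => ?_, fun r => ?_⟩
  · dsimp only
    split_ifs
    · exact hf.1 _
    · simp
  rcases r with r | q
  · refine ⟨0, fun x => ?_⟩
    rw [filter_inl, zero_mul]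
    refine sum_eq_zero fun b _ => ?_
    by_cases h1 : x.1 ≠ b ∧ ρ x.1 b = r
    · simp only [if_pos h1]
      by_cases h2 : b = a
      · simp [h2, h0]
      · simp [h2]
    · simp [if_neg h1]
  · obtain ⟨μ, hμ⟩ := hf.2 q
    refine ⟨μ, fun x => ?_⟩
    rw [filter_inr]
    by_cases h1 : x.1 = a
    · simp only [if_pos h1]
      rw [← hμ x.2]
    · simp [if_neg h1]

/-- **Nested products of signed schemes are signed schemes.** -/
theorem SignedScheme.nest {ρ : V → V → R} {σ : W → W → Q} (hρ : SignedScheme ρ)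
    (hσ : SignedScheme σ) (hd : ∀ x y, ρ x x = ρ y y) : SignedScheme (nestRel ρ σ) := by
  classical
  refine ⟨nest_fst hd hσ.one_mem hρ.one_mem, span_eq_top_of_single ?_⟩
  rintro ⟨a, b⟩
  have hfst : ∀ u : V → ℝ, (fun x : V × W => u x.1) ∈
      Submodule.span ℝ (signedEigen (nestRel ρ σ)) := by
    intro u
    have hu : u ∈ Submodule.span ℝ (signedEigen ρ) := by rw [hρ.span]; trivial
    induction hu using Submodule.span_induction with
    | mem u hu => exact Submodule.subset_span (nest_fst hd hσ.one_mem hu)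
    | zero => exact Submodule.zero_mem _
    | add u v _ _ h₁ h₂ => exact Submodule.add_mem _ h₁ h₂
    | smul c u _ h₁ => exact Submodule.smul_mem _ c h₁
  have hsnd : ∀ u : W → ℝ, (fun x : V × W => if x.1 = a then u x.2 else 0) ∈
      Submodule.span ℝ (signedEigen (nestRel ρ σ)) := by
    intro u
    have hu : u ∈ Submodule.span ℝ (signedEigen σ) := by rw [hσ.span]; trivial
    induction hu using Submodule.span_induction with
    | mem u hu =>
      rcases sum_or_const hu with h0 | ⟨c, hc⟩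
      · exact Submodule.subset_span (nest_snd hu h0 a)
      · have h1 := hfst (fun v => if v = a then c else 0)
        convert h1 using 1
        ext x
        simp [hc]
    | zero =>
      convert Submodule.zero_mem _ using 1
      ext x; simp
    | add u v _ _ h₁ h₂ =>
      convert Submodule.add_mem _ h₁ h₂ using 1
      ext x
      simp only [Pi.add_apply]
      split_ifs <;> simp
    | smul c u _ h₁ =>
      convert Submodule.smul_mem _ c h₁ using 1
      ext x
      simp only [Pi.smul_apply, smul_eq_mul]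
      split_ifs <;> simp
  have h1 := hsnd (Pi.single b 1)
  convert h1 using 1
  ext ⟨x, y⟩
  simp only [Pi.single_apply, Prod.mk.injEq]
  by_cases h2 : x = a <;> by_cases h3 : y = b <;> simp [h2, h3]

end Vale.Agent.P318.R2.H202
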