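import Vale.Agent.P318.R2.H202.SchemeDefs
import Vale.Agent.P318.R2.H202.SymFin
import Vale.Agent.P318.R2.H202.John
import Vale.Agent.P318.R2.H202.Grass
import Vale.Agent.P318.R2.H202.Wreath
import Vale.Agent.P318.R2.H202.CutList
import Vale.Agent.P318.R2.H305.Pm
import Vale.Agent.P318.R2.H867.Mono6

/-!
# All schemes of the class are signed schemes
-/

open Finset

open scoped commutatorElement

namespace Vale.Agent.P318.R2.H202

open Vale.Agent.P318.H867 Vale.Agent.P318.R2.H305 Vale.Agent.P318.R2.H867
  Vale.Agent.P318.R2.H202.Grass

lemma conjGen_symm {G : Type} [Group G] (x y : G) : conjGen G x y = conjGen G y x := by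
  ext K
  have h1 : ∀ a : G, Subgroup.zpowers (a * (x⁻¹ * y) * a⁻¹) =
      Subgroup.zpowers (a * (y⁻¹ * x) * a⁻¹) := by
    intro a
    have : a * (y⁻¹ * x) * a⁻¹ = (a * (x⁻¹ * y) * a⁻¹)⁻¹ := by group
    rw [this, Subgroup.zpowers_inv]
  simp only [conjGen, Set.mem_ofPred_eq, h1]

lemma Scheme.symm {V R : Type} {ρ : V → V → R} (h : Scheme V R ρ) :
    ∀ x y : V, ρ x y = ρ y x := by
  induction h with
  | sets => exact fun x y => propext eq_comm
  | slice n k => exact fun x y => by simp only [Finset.inter_comm]
  | @grassmann F E _ _ _ _ _ k =>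
    exact fun x y => congrArg (fun X : Submodule F E => Module.finrank F X) (inf_comm x.1 y.1)
  | perm n =>
    intro x y
    have h1 : y⁻¹ * x = (x⁻¹ * y)⁻¹ := by group
    change (x⁻¹ * y).cycleType = (y⁻¹ * x).cycleType
    rw [h1, Equiv.Perm.cycleType_inv]
  | group G h => exact conjGen_symm
  | nilpotent G h => exact conjGen_symm
  | metabelian G h => exact conjGen_symm
  | abelian A h => exact fun x y => Set.pair_comm _ _
  | other V R ρ hs hd h => exact hs
  | prod ι V R ρ h ih => exact fun x y => funext fun i => ih i (x i) (y i)
  | nested V R W Q ρ σ hV hW ihV ihW =>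
    intro x y
    by_cases h : x.1 = y.1
    · simp only [nestRel, if_pos h, if_pos h.symm, ihW x.2 y.2]
    · simp only [nestRel, if_neg h, if_neg (fun h' => h h'.symm : ¬ y.1 = x.1), ihV x.1 y.1]

lemma Scheme.diag {V R : Type} {ρ : V → V → R} (h : Scheme V R ρ) :
    ∀ x y : V, ρ x x = ρ y y := by
  induction h with
  | sets => exact fun x y => by simp
  | slice n k => exact fun x y => by simp only [Finset.inter_self]; rw [x.2, y.2]
  | @grassmann F E _ _ _ _ _ k =>
    have h3 : ∀ x : Gr F E k, grRel F E k x x = k := fun x => by
      rw [grRel, inf_of_le_left (le_refl x.1)]; exact x.2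
    exact fun x y => (h3 x).trans (h3 y).symm
  | perm n => exact fun x y => by simp
  | group G h => exact fun x y => by simp [conjGen]
  | nilpotent G h => exact fun x y => by simp [conjGen]
  | metabelian G h => exact fun x y => by simp [conjGen]
  | abelian A h => exact fun x y => by simp
  | other V R ρ hs hd h => exact hd
  | prod ι V R ρ h ih => exact fun x y => funext fun i => ih i (x i) (y i)
  | nested V R W Q ρ σ hV hW ihV ihW =>
    intro x y
    simp only [nestRel, if_true, ihW x.2 y.2]

lemma Scheme.signed {V R : Type} {ρ : V → V → R} (h : Scheme V R ρ) :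
    ∀ _ : Fintype V, SignedScheme ρ := by
  classical
  induction h with
  | sets => exact fun _ => signed_eq
  | slice n k =>
    intro inst
    have h1 := signed_slice n k
    have h2 : inst = Subtype.fintype _ := Subsingleton.elim _ _
    subst h2
    exact h1
  | @grassmann F E _ _ _ _ _ k =>
    intro inst
    have h1 : Fintype F := Fintype.ofFinite F
    have h2 : Fintype E := Fintype.ofFinite E
    have h3 : Fintype (Submodule F E) := Fintype.ofFinite _
    exact signed_grass (F := F) (E := E) k
  | perm n =>
    intro inst
    have h1 := signed_perm n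
    have h2 : inst = Equiv.instFintype := Subsingleton.elim _ _
    subst h2
    exact h1
  | @group G _ _ h => exact fun _ => signed_mono (fun H Q _ π hπ hab => h H Q π hπ hab)
  | nilpotent G h => exact fun _ => signed_mono secAb_of_nilpotent
  | metabelian G h => exact fun _ => signed_mono (secAb_of_metabelian h)
  | abelian A h => exact fun _ => signed_pm A h
  | @other V R hV ρ hs hd h =>
    intro inst
    have h3 : inst = hV := Subsingleton.elim _ _
    subst h3
    exact h
  | prod ι V R ρ h ih =>
    intro inst
    have h1 : Fintype ι := Fintype.ofFinite ι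
    have h2 : ∀ i, Fintype (V i) := fun i => Fintype.ofFinite _
    have h3 : inst = Pi.instFintype := Subsingleton.elim _ _
    subst h3
    exact SignedScheme.pi fun i => ih i (h2 i)
  | nested V R W Q ρ σ hV hW ihV ihW =>
    intro inst
    have h1 : Fintype V := Fintype.ofFinite V
    have h2 : Fintype W := Fintype.ofFinite W
    have h3 : inst = instFintypeProd V W := Subsingleton.elim _ _
    subst h3
    exact SignedScheme.nest (ihV h1) (ihW h2) hV.diag

end Vale.Agent.P318.R2.H202
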