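import Vale.Agent.P318.R2.H202.Scheme

/-!
# The conjugacy scheme of the symmetric group is a signed scheme

The coefficient function of a Young symmetrizer has values in `{-1,0,1}` and is an eigenfunction
of every class sum; the two-sided translates of these functions span.
-/

open Finset Equiv

set_option linter.unusedSectionVars false

namespace Vale.Agent.P318.R2.H202

lemma perm_apply_inv {α : Type*} (p : Perm α) (x : α) : p (p⁻¹ x) = x := by simp

lemma perm_inv_apply {α : Type*} (p : Perm α) (x : α) : p⁻¹ (p x) = x := by simp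

/-- rows and columns of the labels of a tableau whose columns are initial segments -/
structure Tab (n : ℕ) where
  r : Fin n → ℕ
  c : Fin n → ℕ
  inj : ∀ x y, r x = r y → c x = c y → x = y
  col : ∀ x k, k < r x → ∃ y, c y = c x ∧ r y = k

lemma sum_range_le (S : Finset ℕ) : ∑ k ∈ range S.card, k ≤ ∑ k ∈ S, k := by
  induction S using Finset.induction_on_max with
  | empty => simp
  | insert a s hs ih =>
    have ha : a ∉ s := fun h => lt_irrefl _ (hs a h)
    rw [card_insert_of_notMem ha, sum_range_succ, sum_insert ha]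
    have h1 : s.card ≤ a := by
      have : s ⊆ range a := fun x hx => mem_range.2 (hs x hx)
      simpa using card_le_card this
    omega

lemma eq_range_of_sum_le (S : Finset ℕ) (h : ∑ k ∈ S, k ≤ ∑ k ∈ range S.card, k) :
    S = range S.card := by
  induction S using Finset.induction_on_max with
  | empty => simp
  | insert a s hs ih =>
    have ha : a ∉ s := fun h => lt_irrefl _ (hs a h)
    rw [card_insert_of_notMem ha, sum_range_succ, sum_insert ha] at h
    have h1 : s.card ≤ a := by
      have : s ⊆ range a := fun x hx => mem_range.2 (hs x hx)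
      simpa using card_le_card this
    have h2 := sum_range_le s
    have h3 := ih (by omega)
    rw [card_insert_of_notMem ha, range_add_one, ← h3]
    congr 1
    omega

section comb

variable {n : ℕ}

/-- the fibre of a column -/
def Tab.fib (T : Tab n) (c0 : ℕ) : Finset (Fin n) := univ.filter fun x => T.c x = c0

lemma Tab.image_r (T : Tab n) (c0 : ℕ) : (T.fib c0).image T.r = range (T.fib c0).card := by
  have hcard : ((T.fib c0).image T.r).card = (T.fib c0).card := by
    apply card_image_of_injOn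
    intro x hx y hy h
    simp only [Tab.fib, coe_filter, mem_univ, true_and, Set.mem_ofPred_eq] at hx hy
    exact T.inj x y h (hx.trans hy.symm)
  rw [← hcard]
  -- a down-closed finite set of naturals is a range
  set S := (T.fib c0).image T.r with hS
  have hdown : ∀ a ∈ S, ∀ k < a, k ∈ S := by
    intro a ha k hk
    rw [hS, mem_image] at ha ⊢
    obtain ⟨x, hx, rfl⟩ := ha
    obtain ⟨y, h1, h2⟩ := T.col x k hk
    simp only [Tab.fib, mem_filter, mem_univ, true_and] at hx
    exact ⟨y, by simp [Tab.fib, h1, hx], h2⟩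
  apply eq_of_subset_of_card_le
  · intro a ha
    rw [mem_range]
    have : range (a + 1) ⊆ S := by
      intro k hk
      rw [mem_range] at hk
      rcases Nat.lt_succ_iff_lt_or_eq.1 hk with h | h
      · exact hdown a ha k h
      · exact h ▸ ha
    simpa using card_le_card this
  · simp

/-- **Main combinatorial lemma.** -/
lemma Tab.comb (T : Tab n) (R : Fin n → ℕ)
    (hinj : ∀ x y, R x = R y → T.c x = T.c y → x = y) (hle : ∑ x, R x ≤ ∑ x, T.r x) (c0 : ℕ) :
    (T.fib c0).image R = (T.fib c0).image T.r := by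
  have hcardR : ∀ c0, ((T.fib c0).image R).card = (T.fib c0).card := by
    intro c0
    apply card_image_of_injOn
    intro x hx y hy h
    simp only [Tab.fib, coe_filter, mem_univ, true_and, Set.mem_ofPred_eq] at hx hy
    exact hinj x y h (hx.trans hy.symm)
  have hsumR : ∀ c0, ∑ x ∈ T.fib c0, R x = ∑ k ∈ (T.fib c0).image R, k := by
    intro c0
    rw [sum_image]
    intro x hx y hy h
    simp only [Tab.fib, coe_filter, mem_univ, true_and, Set.mem_ofPred_eq] at hx hy
    exact hinj x y h (hx.trans hy.symm)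
  have hsumT : ∀ c0, ∑ x ∈ T.fib c0, T.r x = ∑ k ∈ range (T.fib c0).card, k := by
    intro c0
    rw [← T.image_r, sum_image]
    intro x hx y hy h
    simp only [Tab.fib, coe_filter, mem_univ, true_and, Set.mem_ofPred_eq] at hx hy
    exact T.inj x y h (hx.trans hy.symm)
  have hle' : ∀ c0, ∑ x ∈ T.fib c0, T.r x ≤ ∑ x ∈ T.fib c0, R x := by
    intro c0
    rw [hsumR, hsumT, ← hcardR]
    exact sum_range_le _
  set D := univ.image T.c with hD
  have hfib : ∀ F : Fin n → ℕ, ∑ x, F x = ∑ c0 ∈ D, ∑ x ∈ T.fib c0, F x := by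
    intro F
    rw [← sum_fiberwise_of_maps_to (s := univ) (t := D) (g := T.c)
      (fun x _ => mem_image_of_mem _ (mem_univ x))]
    rfl
  by_cases hc0 : c0 ∈ D
  · have h1 : ∑ x ∈ T.fib c0, R x ≤ ∑ x ∈ T.fib c0, T.r x := by
      by_contra hcon
      push Not at hcon
      have : ∑ x, T.r x < ∑ x, R x := by
        rw [hfib, hfib]
        exact sum_lt_sum (fun c _ => hle' c) ⟨c0, hc0, hcon⟩
      omega
    rw [hsumR, hsumT, ← hcardR] at h1
    rw [T.image_r, ← hcardR]
    exact eq_range_of_sum_le _ h1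
  · have : T.fib c0 = ∅ := by
      rw [Tab.fib, filter_eq_empty_iff]
      intro x _ hx
      exact hc0 (hx ▸ mem_image_of_mem _ (mem_univ x))
    rw [this]; simp

/-- equal fibre sizes of the rows -/
lemma Tab.comb_count (T : Tab n) (R : Fin n → ℕ)
    (hinj : ∀ x y, R x = R y → T.c x = T.c y → x = y) (hle : ∑ x, R x ≤ ∑ x, T.r x) (k : ℕ) :
    (univ.filter fun x => R x = k).card = (univ.filter fun x => T.r x = k).card := by
  have key : ∀ F : Fin n → ℕ, (∀ x y, F x = F y → T.c x = T.c y → x = y) →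
      (univ.filter fun x => F x = k).card =
        ∑ c0 ∈ univ.image T.c, if k ∈ (T.fib c0).image F then 1 else 0 := by
    intro F hF
    rw [card_eq_sum_ones, sum_filter,
      ← sum_fiberwise_of_maps_to (s := univ) (t := univ.image T.c) (g := T.c)
      (fun x _ => mem_image_of_mem _ (mem_univ x))]
    refine sum_congr rfl fun c0 _ => ?_
    split_ifs with h
    · obtain ⟨x, hx, hxk⟩ := mem_image.1 h
      simp only [Tab.fib, mem_filter, mem_univ, true_and] at hx
      rw [sum_eq_single_of_mem x (by simp [hx])]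
      · simp [hxk]
      · intro y hy hyx
        simp only [mem_filter, mem_univ, true_and] at hy
        rw [if_neg]
        intro h2
        exact hyx (hF y x (h2.trans hxk.symm) (hy.trans hx.symm))
    · apply sum_eq_zero
      intro y hy
      simp only [mem_filter, mem_univ, true_and] at hy
      rw [if_neg]
      intro h2
      exact h (mem_image.2 ⟨y, by simp [Tab.fib, hy], h2⟩)
  rw [key R hinj, key T.r T.inj]
  refine sum_congr rfl fun c0 _ => ?_
  rw [T.comb R hinj hle c0]

end comb

section young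

variable {n : ℕ} (T : Tab n)

/-- the row group -/
def Tab.P : Set (Perm (Fin n)) := {p | ∀ x, T.r (p x) = T.r x}

/-- the column group -/
def Tab.Q : Set (Perm (Fin n)) := {q | ∀ x, T.c (q x) = T.c x}

lemma Tab.P_mul {p q : Perm (Fin n)} (hp : p ∈ T.P) (hq : q ∈ T.P) : p * q ∈ T.P := by
  intro x; rw [Perm.mul_apply, hp, hq]

lemma Tab.P_inv {p : Perm (Fin n)} (hp : p ∈ T.P) : p⁻¹ ∈ T.P := by
  intro x
  have := hp (p⁻¹ x)
  rw [perm_apply_inv] at this
  exact this.symm

lemma Tab.Q_mul {p q : Perm (Fin n)} (hp : p ∈ T.Q) (hq : q ∈ T.Q) : p * q ∈ T.Q := by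
  intro x; rw [Perm.mul_apply, hp, hq]

lemma Tab.Q_inv {p : Perm (Fin n)} (hp : p ∈ T.Q) : p⁻¹ ∈ T.Q := by
  intro x
  have := hp (p⁻¹ x)
  rw [perm_apply_inv] at this
  exact this.symm

lemma Tab.one_of_mem {p : Perm (Fin n)} (hp : p ∈ T.P) (hq : p ∈ T.Q) : p = 1 := by
  ext x
  rw [T.inj _ _ (hp x) (hq x)]; rfl

lemma Tab.swap_P {i j : Fin n} (h : T.r i = T.r j) : swap i j ∈ T.P := by
  intro x
  rw [swap_apply_def]
  split_ifs with h1 h2
  · rw [h1, h]
  · rw [h2, h]
  · rfl

lemma Tab.swap_Q {i j : Fin n} (h : T.c i = T.c j) : swap i j ∈ T.Q := by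
  intro x
  rw [swap_apply_def]
  split_ifs with h1 h2
  · rw [h1, h]
  · rw [h2, h]
  · rfl

/-- the sign as a real number -/
noncomputable def sg (q : Perm (Fin n)) : ℝ := ((Perm.sign q : ℤ) : ℝ)

lemma sg_mul (p q : Perm (Fin n)) : sg (p * q) = sg p * sg q := by
  simp [sg]

lemma sg_tri (q : Perm (Fin n)) : sg q = -1 ∨ sg q = 1 := by
  rcases Int.units_eq_one_or (Perm.sign q) with h | h <;> simp [sg, h]

lemma sg_swap {i j : Fin n} (h : i ≠ j) : sg (swap i j) = -1 := by
  simp [sg, Perm.sign_swap h]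

open Classical in
/-- the coefficient function of the Young symmetrizer -/
noncomputable def Tab.f (g : Perm (Fin n)) : ℝ :=
  if h : ∃ q, q ∈ T.Q ∧ g * q⁻¹ ∈ T.P then sg h.choose else 0

lemma Tab.f_mul {p q : Perm (Fin n)} (hp : p ∈ T.P) (hq : q ∈ T.Q) : T.f (p * q) = sg q := by
  have h : ∃ q', q' ∈ T.Q ∧ p * q * q'⁻¹ ∈ T.P := ⟨q, hq, by simpa using hp⟩
  rw [Tab.f, dif_pos h]
  obtain ⟨h1, h2⟩ := h.choose_spec
  congr 1
  have h3 : q * h.choose⁻¹ ∈ T.P := by
    have := T.P_mul (T.P_inv hp) h2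
    simpa [mul_assoc] using this
  have h4 := T.one_of_mem h3 (T.Q_mul hq (T.Q_inv h1))
  exact (mul_inv_eq_one.1 h4).symm

lemma Tab.f_zero {g : Perm (Fin n)} (h : ¬ ∃ p q, p ∈ T.P ∧ q ∈ T.Q ∧ g = p * q) : T.f g = 0 := by
  rw [Tab.f, dif_neg]
  rintro ⟨q, h1, h2⟩
  exact h ⟨_, q, h2, h1, by simp⟩

lemma Tab.f_one : T.f 1 = 1 := by
  have h1 : (1 : Perm (Fin n)) ∈ T.P := fun x => rfl
  have h2 : (1 : Perm (Fin n)) ∈ T.Q := fun x => rfl
  have := T.f_mul h1 h2
  rw [mul_one] at this
  rw [this]; simp [sg]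

lemma Tab.f_tri (g : Perm (Fin n)) : T.f g = -1 ∨ T.f g = 0 ∨ T.f g = 1 := by
  by_cases h : ∃ p q, p ∈ T.P ∧ q ∈ T.Q ∧ g = p * q
  · obtain ⟨p, q, hp, hq, rfl⟩ := h
    rw [T.f_mul hp hq]
    rcases sg_tri q with h | h <;> simp [h]
  · rw [T.f_zero h]; simp

lemma Tab.f_left {p : Perm (Fin n)} (hp : p ∈ T.P) (g : Perm (Fin n)) : T.f (p * g) = T.f g := by
  by_cases h : ∃ p q, p ∈ T.P ∧ q ∈ T.Q ∧ g = p * q
  · obtain ⟨p', q, hp', hq, rfl⟩ := h
    rw [← mul_assoc, T.f_mul (T.P_mul hp hp') hq, T.f_mul hp' hq]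
  · rw [T.f_zero h, T.f_zero]
    rintro ⟨p', q, hp', hq, he⟩
    exact h ⟨p⁻¹ * p', q, T.P_mul (T.P_inv hp) hp', hq, by rw [mul_assoc, ← he]; simp⟩

lemma Tab.f_right {q : Perm (Fin n)} (hq : q ∈ T.Q) (g : Perm (Fin n)) :
    T.f (g * q) = sg q * T.f g := by
  by_cases h : ∃ p q, p ∈ T.P ∧ q ∈ T.Q ∧ g = p * q
  · obtain ⟨p', q', hp', hq', rfl⟩ := h
    rw [mul_assoc, T.f_mul hp' (T.Q_mul hq' hq), T.f_mul hp' hq', sg_mul]; ring
  · rw [T.f_zero h, T.f_zero, mul_zero]
    rintro ⟨p', q', hp', hq', he⟩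
    exact h ⟨p', q' * q⁻¹, hp', T.Q_mul hq' (T.Q_inv hq), by rw [← mul_assoc, ← he]; simp⟩

/-- a function with the symmetries of the Young symmetrizer vanishes off `P Q` -/
lemma Tab.vanish {F : Perm (Fin n) → ℝ} {g : Perm (Fin n)}
    (hl : ∀ p ∈ T.P, F (p * g) = F g) (hr : ∀ q ∈ T.Q, F (g * q) = sg q * F g)
    (h : ¬ ∃ p q, p ∈ T.P ∧ q ∈ T.Q ∧ g = p * q) : F g = 0 := by
  by_cases hpair : ∃ i j, i ≠ j ∧ T.r i = T.r j ∧ T.c (g⁻¹ i) = T.c (g⁻¹ j)
  · obtain ⟨i, j, hij, h1, h2⟩ := hpair
    have h3 : g * swap (g⁻¹ i) (g⁻¹ j) = swap i j * g := by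
      rw [mul_swap_eq_swap_mul]; simp
    have h4 := hr _ (T.swap_Q h2)
    rw [h3, hl _ (T.swap_P h1), sg_swap (fun h => hij (g⁻¹.injective h))] at h4
    linarith
  · exfalso
    push Not at hpair
    apply h
    have hinj : ∀ x y, T.r (g x) = T.r (g y) → T.c x = T.c y → x = y := by
      intro x y h1 h2
      by_contra hxy
      exact hpair (g x) (g y) (fun h => hxy (g.injective h)) h1 (by simpa using h2)
    have hle : ∑ x, T.r (g x) ≤ ∑ x, T.r x := (Equiv.sum_comp g T.r).le
    have hex : ∀ y, ∃ y', T.c y' = T.c y ∧ T.r y' = T.r (g y) := by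
      intro y
      have h1 : T.r (g y) ∈ (T.fib (T.c y)).image fun x => T.r (g x) :=
        mem_image.2 ⟨y, by simp [Tab.fib], rfl⟩
      rw [T.comb _ hinj hle, mem_image] at h1
      obtain ⟨y', h2, h3⟩ := h1
      simp only [Tab.fib, mem_filter, mem_univ, true_and] at h2
      exact ⟨y', h2, h3⟩
    choose q hq1 hq2 using hex
    have hqinj : Function.Injective q := by
      intro x y hxy
      exact hinj x y ((hq2 x).symm.trans ((congrArg T.r hxy).trans (hq2 y)))
        ((hq1 x).symm.trans ((congrArg T.c hxy).trans (hq1 y)))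
    set Q : Perm (Fin n) := Equiv.ofBijective q hqinj.bijective_of_finite with hQ
    refine ⟨g * Q⁻¹, Q, ?_, ?_, by simp⟩
    · intro x
      obtain ⟨y, rfl⟩ := Q.surjective x
      rw [Perm.mul_apply, perm_inv_apply]
      exact (hq2 y).symm
    · intro x
      exact hq1 x

/-- the conjugacy relation on the symmetric group -/
def conjRel (n : ℕ) : Perm (Fin n) → Perm (Fin n) → Multiset ℕ := fun x y => (x⁻¹ * y).cycleType

lemma Tab.f_mem : T.f ∈ signedEigen (conjRel n) := by
  refine ⟨T.f_tri, fun r => ?_⟩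
  let F : Perm (Fin n) → ℝ := fun x =>
    ∑ y ∈ @Finset.filter _ (fun y => conjRel n x y = r) (fun _ => Classical.propDecidable _) univ,
      T.f y
  have hleft : ∀ p ∈ T.P, ∀ x, F (p * x) = F x := by
    intro p hp x
    have := @sum_equiv _ _ _ (conjRel n) T.f (Equiv.mulLeft p) 1
      (fun x y => by simp [conjRel, mul_assoc]) (fun x => by simp [T.f_left hp]) r
      (fun _ => Classical.propDecidable _) x
    rw [one_mul] at this
    exact this
  have hright : ∀ q ∈ T.Q, ∀ x, F (x * q) = sg q * F x := by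
    intro q hq x
    exact @sum_equiv _ _ _ (conjRel n) T.f (Equiv.mulRight q) (sg q)
      (fun x y => by
        have : (x * q)⁻¹ * (y * q) = q⁻¹ * (x⁻¹ * y) * q⁻¹⁻¹ := by group
        simp only [conjRel, Equiv.coe_mulRight]
        rw [this, Perm.cycleType_conj]) (fun x => by simp [T.f_right hq]) r
      (fun _ => Classical.propDecidable _) x
  refine ⟨F 1, fun x => ?_⟩
  change F x = F 1 * T.f x
  by_cases h : ∃ p q, p ∈ T.P ∧ q ∈ T.Q ∧ x = p * q
  · obtain ⟨p, q, hp, hq, rfl⟩ := h
    rw [T.f_mul hp hq, hleft p hp, ← one_mul q, hright q hq, one_mul]; ring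
  · rw [T.f_zero h, mul_zero]
    exact T.vanish (fun p hp => hleft p hp x) (fun q hq => hright q hq x) h

/-- orthogonality of the bi-translates for different shapes -/
lemma Tab.orth (T' : Tab n) (hle : ∑ x, T.r x ≤ ∑ x, T'.r x)
    (hne : ∃ k, (univ.filter fun x => T.r x = k).card ≠ (univ.filter fun x => T'.r x = k).card)
    (g h : Perm (Fin n)) : ∑ x, T.f (g * x * h) * T'.f x = 0 := by
  classical
  set QQ : Finset (Perm (Fin n)) := univ.filter fun q => q ∈ T'.Q with hQQ
  set K : Perm (Fin n) → ℝ := fun x => ∑ q ∈ QQ, sg q * T.f (g * (x * q) * h) with hK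
  have hK0 : ∀ x, K x = 0 := by
    intro x
    by_cases hpair : ∃ i j, i ≠ j ∧ T.r (g i) = T.r (g j) ∧ T'.c (x⁻¹ i) = T'.c (x⁻¹ j)
    · obtain ⟨i, j, hij, h1, h2⟩ := hpair
      set τ := swap (x⁻¹ i) (x⁻¹ j) with hτ
      have hτQ : τ ∈ T'.Q := T'.swap_Q h2
      have hττ : τ * τ = 1 := swap_mul_self _ _
      have h3 : x * τ = swap i j * x := by
        rw [hτ, mul_swap_eq_swap_mul]; simp
      have h4 : g * swap i j = swap (g i) (g j) * g := mul_swap_eq_swap_mul _ _ _
      have h5 : K x = - K x := by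
        have : K x = ∑ q ∈ QQ, sg (τ * q) * T.f (g * (x * (τ * q)) * h) := by
          simp only [hK]
          symm
          refine sum_bij (fun q _ => τ * q) ?_ ?_ ?_ ?_
          · intro q hq
            simp only [hQQ, mem_filter, mem_univ, true_and] at hq ⊢
            exact T'.Q_mul hτQ hq
          · intro a _ b _ hab
            exact mul_left_cancel hab
          · intro q hq
            simp only [hQQ, mem_filter, mem_univ, true_and] at hq
            refine ⟨τ * q, ?_, by rw [← mul_assoc, hττ, one_mul]⟩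
            simp only [hQQ, mem_filter, mem_univ, true_and]
            exact T'.Q_mul hτQ hq
          · intro q _; rfl
        refine this.trans ?_
        simp only [hK]
        rw [← sum_neg_distrib]
        refine sum_congr rfl fun q _ => ?_
        rw [sg_mul, hτ, sg_swap (fun h => hij (x⁻¹.injective h)), ← hτ]
        have e1 : g * (x * (τ * q)) * h = swap (g i) (g j) * (g * (x * q) * h) := by
          rw [← mul_assoc x τ q, h3]
          simp only [← mul_assoc]
          rw [h4]
        rw [e1, T.f_left (T.swap_P h1)]; ring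
      linarith
    · exfalso
      push Not at hpair
      obtain ⟨k, hk⟩ := hne
      apply hk
      have hinj : ∀ a b, T.r (g (x a)) = T.r (g (x b)) → T'.c a = T'.c b → a = b := by
        intro a b h1 h2
        by_contra hab
        exact hpair (x a) (x b) (fun h => hab (x.injective h)) h1 (by simpa using h2)
      have hsum : ∑ a, T.r (g (x a)) = ∑ a, T.r a := by
        have := Equiv.sum_comp (g * x) T.r
        simpa [Perm.mul_apply] using this
      have h1 := T'.comb_count (fun a => T.r (g (x a))) hinj (by rw [hsum]; exact hle) k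
      rw [← h1]
      symm
      apply card_bij (fun a _ => (g * x) a)
      · intro a ha
        simpa using ha
      · intro a _ b _ hab
        exact (g * x).injective hab
      · intro b hb
        refine ⟨(g * x)⁻¹ b, ?_, by simp⟩
        simp only [mem_filter, mem_univ, true_and] at hb ⊢
        have : g (x ((g * x)⁻¹ b)) = b := by
          have := perm_apply_inv (g * x) b
          rwa [Perm.mul_apply] at this
        rw [this]; exact hb
  have hB : ∀ q ∈ QQ, ∑ x, T.f (g * x * h) * T'.f x =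
      ∑ x, sg q * T.f (g * (x * q) * h) * T'.f x := by
    intro q hq
    simp only [hQQ, mem_filter, mem_univ, true_and] at hq
    rw [← Equiv.sum_comp (Equiv.mulRight q) (fun x => T.f (g * x * h) * T'.f x)]
    refine sum_congr rfl fun x _ => ?_
    simp only [Equiv.coe_mulRight]
    rw [T'.f_right hq]; ring
  have hcard : (QQ.card : ℝ) * ∑ x, T.f (g * x * h) * T'.f x = 0 := by
    have h1 : (QQ.card : ℝ) * ∑ x, T.f (g * x * h) * T'.f x =
        ∑ q ∈ QQ, ∑ x, sg q * T.f (g * (x * q) * h) * T'.f x := by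
      rw [← sum_congr rfl hB, sum_const, nsmul_eq_mul]
    rw [h1, sum_comm]
    apply sum_eq_zero
    intro x _
    rw [← sum_mul]
    have := hK0 x
    simp only [hK] at this
    rw [this, zero_mul]
  have hpos : (QQ.card : ℝ) ≠ 0 := by
    have : (1 : Perm (Fin n)) ∈ QQ := by
      simp only [hQQ, mem_filter, mem_univ, true_and]
      exact fun x => rfl
    have := card_pos.2 ⟨_, this⟩
    positivity
  rcases mul_eq_zero.1 hcard with h | h
  · exact absurd h hpos
  · exact h

end young

end Vale.Agent.P318.R2.H202
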